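import Vale.Agent.P072.Proper

/-! Bands around the rays, comparison of neighbouring levels, and collapse at the edge. -/

noncomputable section

namespace Vale.Agent.P072

open Filter Topology

namespace Frame

variable {d : ℕ} (G : Frame d) (H : ℝ)

/-- The band of direction `k`. -/
def Band (k : ℕ) (w : ℝ × ℝ) : Prop := w ∈ G.P ∧ |G.xi w (G.F.dir k)| ≤ H

lemma band_yb {k : ℕ} {b h : ℝ} (hb : ∃ w ∈ G.P, G.n k w = b) (hh : |h| ≤ H) :
    G.Band H k (G.yb k b h) := by
  obtain ⟨h1, h2⟩ := G.yb_mem hb h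
  exact ⟨h1, by rwa [h2]⟩

lemma continuous_yb_lev (k : ℕ) :
    Continuous fun q : ℝ × ℝ => G.yb k (G.lev k q.1) q.2 := by
  refine (G.continuousOn_yb k).comp_continuous
    (((G.continuous_lev k).comp continuous_fst).prodMk continuous_snd) fun q => ?_
  obtain ⟨w, hw, h⟩ := G.lev_valid k q.1
  refine ⟨G.sc k w, ?_⟩
  have := G.mem_lineDom (k := k) hw
  rwa [h] at this

lemma exists_e_bound (k : ℕ) : ∃ C, 0 ≤ C ∧ ∀ h, |h| ≤ H →
    |G.xi (G.yb k 0 h) (G.e k)| ≤ C := by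
  have hc : ContinuousOn (fun h => G.xi (G.yb k 0 h) (G.e k)) (Set.Icc (-H) H) := by
    refine (G.continuousOn_xi _).comp ?_ fun h _ =>
      (G.yb_mem ⟨0, G.zero_mem, by simp [n, cross]⟩ h).1
    have := (G.continuous_yb_lev k).comp ((continuous_const (y := (0 : ℝ))).prodMk continuous_id)
    simp only [Function.comp_def, lev_zero] at this
    exact this.continuousOn
  obtain ⟨C, hC⟩ := isCompact_Icc.exists_bound_of_continuousOn hc
  exact ⟨max C 0, le_max_right _ _, fun h hh => (hC h (abs_le.1 hh)).trans (le_max_left _ _)⟩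

lemma nonneg_of_deep (k : ℕ) :
    ∃ C, 0 ≤ C ∧ ∀ w, G.Band H k w → C < G.xi w (G.e k) → 0 ≤ G.n k w := by
  obtain ⟨C, hC0, hC⟩ := G.exists_e_bound H k
  refine ⟨C, hC0, fun w ⟨hw, hh⟩ hlt => ?_⟩
  by_contra hneg
  push Not at hneg
  obtain ⟨h1, h2⟩ := G.yb_mem (k := k) (b := 0) ⟨0, G.zero_mem, by simp [n, cross]⟩
    (G.xi w (G.F.dir k))
  have := G.xi_e_lt hw h1 h2.symm (by rw [n_yb]; exact hneg)
  linarith [(abs_le.1 (hC _ hh)).2]

lemma lower_of_nonneg (k : ℕ) :
    ∃ C, 0 ≤ C ∧ ∀ w, G.Band H k w → 0 ≤ G.n k w → -C ≤ G.xi w (G.e k) := by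
  obtain ⟨C, hC0, hC⟩ := G.exists_e_bound H k
  refine ⟨C, hC0, fun w ⟨hw, hh⟩ hn => ?_⟩
  rcases hn.eq_or_lt with h | h
  · rw [G.eq_yb (k := k) hw, ← h]
    exact (abs_le.1 (hC _ hh)).1
  · obtain ⟨h1, h2⟩ := G.yb_mem (k := k) (b := 0) ⟨0, G.zero_mem, by simp [n, cross]⟩
      (G.xi w (G.F.dir k))
    have := G.xi_e_lt h1 hw h2 (by rw [n_yb]; exact h)
    linarith [(abs_le.1 (hC _ hh)).1]

lemma cross_dir_e (k : ℕ) : cross (G.F.dir k) (G.e k) = -1 := by
  have := G.n_e k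
  simp only [n] at this
  linarith

lemma deep (k j : ℕ) (C : ℝ) : ∃ T, ∀ w, G.Band H k w → 0 ≤ G.n k w →
    T < G.tau j (G.n j w) → C < G.xi w (G.e k) := by
  obtain ⟨C0, hC0, hlow⟩ := G.lower_of_nonneg H k
  obtain ⟨Q, hQP, hQ, hmem⟩ := G.bounded_xi_pair (p := G.F.dir k) (q := G.e k)
    (by rw [cross_dir_e]; norm_num) (|H| + |C| + C0)
  obtain ⟨T, hT⟩ := hQ.exists_bound_of_continuousOn ((G.continuousOn_tau_n j).mono hQP)
  refine ⟨T, fun w hband hn hlt => ?_⟩
  by_contra hle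
  push Not at hle
  have h1 := hlow w hband hn
  have := hT w (hmem w hband.1
    (hband.2.trans (by linarith [le_abs_self H, abs_nonneg C]))
    (abs_le.2 ⟨by linarith [abs_nonneg H, abs_nonneg C], by linarith [le_abs_self C, abs_nonneg H]⟩))
  linarith [le_abs_self (G.tau j (G.n j w)), Real.norm_eq_abs (G.tau j (G.n j w))]

/-- Largest `j`-level met on the band of `k` up to the `k`-level `t`. -/
def Fmap (k j : ℕ) (t : ℝ) : ℝ :=
  sSup ((fun q : ℝ × ℝ => G.tau j (G.n j (G.yb k (G.lev k (q.1 * max t 0)) q.2))) ''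
    (Set.Icc (0 : ℝ) 1 ×ˢ Set.Icc (-H) H))

lemma continuous_inner (k j : ℕ) : Continuous fun p : ℝ × ℝ × ℝ =>
    G.tau j (G.n j (G.yb k (G.lev k (p.2.1 * max p.1 0)) p.2.2)) :=
  (G.continuousOn_tau_n j).comp_continuous
    ((G.continuous_yb_lev k).comp
      (by fun_prop : Continuous fun p : ℝ × ℝ × ℝ => (p.2.1 * max p.1 0, p.2.2)))
    fun p => (G.yb_mem (G.lev_valid k _) _).1

lemma continuous_sSup_section (g : ℝ → ℝ × ℝ → ℝ)
    (hg : Continuous fun p : ℝ × ℝ × ℝ => g p.1 p.2) {K : Set (ℝ × ℝ)} (hK : IsCompact K) :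
    Continuous fun t => sSup (g t '' K) :=
  hK.continuous_sSup hg

lemma continuous_Fmap (k j : ℕ) : Continuous (G.Fmap H k j) := by
  have h := continuous_sSup_section
    (fun t q => G.tau j (G.n j (G.yb k (G.lev k (q.1 * max t 0)) q.2)))
    (G.continuous_inner k j)
    (K := Set.Icc (0 : ℝ) 1 ×ˢ Set.Icc (-H) H) (isCompact_Icc.prod isCompact_Icc)
  unfold Fmap
  exact h

lemma exists_Fmap (hH : 0 ≤ H) (k j : ℕ) (t : ℝ) : ∃ w, G.Band H k w ∧ 0 ≤ G.n k w ∧
    G.tau k (G.n k w) ≤ max t 0 ∧ G.n k w ≤ G.lev k t ∧ G.tau j (G.n j w) = G.Fmap H k j t := by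
  have hne : (Set.Icc (0 : ℝ) 1 ×ˢ Set.Icc (-H) H).Nonempty :=
    ⟨(0, 0), ⟨le_rfl, zero_le_one⟩, by simpa using hH, hH⟩
  obtain ⟨⟨s, h⟩, ⟨hs, hh⟩, he⟩ := (isCompact_Icc.prod isCompact_Icc).exists_sSup_image_eq hne
    (((G.continuous_inner k j).comp ((continuous_const (y := t)).prodMk continuous_id)).continuousOn)
  refine ⟨G.yb k (G.lev k (s * max t 0)) h, G.band_yb H (G.lev_valid k _) (abs_le.2 hh),
    ?_, ?_, ?_, he.symm⟩
  · rw [n_yb]; exact G.lev_nonneg _ _
  · rw [n_yb, G.tau_lev k (mul_nonneg hs.1 (le_max_right _ _))]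
    exact mul_le_of_le_one_left (le_max_right _ _) hs.2
  · rw [n_yb]
    refine (G.lev_mono k (mul_le_of_le_one_left (le_max_right _ _) hs.2)).trans ?_
    rcases le_total t 0 with h0 | h0
    · rw [max_eq_right h0, lev_zero]; exact G.lev_nonneg _ _
    · rw [max_eq_left h0]

lemma le_Fmap {k j : ℕ} {t : ℝ} {w : ℝ × ℝ} (hw : G.Band H k w) (hn : 0 ≤ G.n k w)
    (ht : G.tau k (G.n k w) ≤ max t 0) : G.tau j (G.n j w) ≤ G.Fmap H k j t := by
  refine le_csSup ?_ ⟨(G.tau k (G.n k w) / max t 0, G.xi w (G.F.dir k)), ⟨⟨?_, ?_⟩, abs_le.1 hw.2⟩, ?_⟩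
  · exact ((isCompact_Icc.prod isCompact_Icc).image
      ((G.continuous_inner k j).comp ((continuous_const (y := t)).prodMk continuous_id))).bddAbove
  · exact div_nonneg (G.tau_nonneg hw.1) (le_max_right _ _)
  · exact div_le_one_of_le₀ ht (le_max_right _ _)
  · have h0 := G.tau_nonneg (k := k) hw.1
    have e : G.tau k (G.n k w) / max t 0 * max t 0 = G.tau k (G.n k w) := by
      rcases (le_max_right t 0).eq_or_lt with h | h
      · rw [← h] at ht ⊢; rw [mul_zero]; linarith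
      · rw [div_mul_cancel₀ _ h.ne']
    simp only [e, G.lev_tau hw.1 hn]
    rw [← G.eq_yb hw.1]

lemma Fmap_mono (hH : 0 ≤ H) (k j : ℕ) : Monotone (G.Fmap H k j) := fun s t hst => by
  obtain ⟨w, hw, hn, hts, -, he⟩ := G.exists_Fmap H hH k j s
  rw [← he]
  exact G.le_Fmap H hw hn (hts.trans (max_le_max_right _ hst))

lemma Fmap_nonneg (hH : 0 ≤ H) (k j : ℕ) (t : ℝ) : 0 ≤ G.Fmap H k j t := by
  obtain ⟨w, hw, -, -, -, he⟩ := G.exists_Fmap H hH k j t
  rw [← he]
  exact G.tau_nonneg hw.1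

lemma Fmap_congr {k k' j j' : ℕ} (hk : k' % G.F.N = k % G.F.N) (hj : j' % G.F.N = j % G.F.N) :
    G.Fmap H k' j' = G.Fmap H k j := by
  have hd : ∀ a b : ℕ, a % G.F.N = b % G.F.N → G.F.dir a = G.F.dir b := fun a b h => by
    rw [← G.F.dir_mod a, h, G.F.dir_mod]
  have hn : ∀ a b : ℕ, a % G.F.N = b % G.F.N → G.n a = G.n b := fun a b h => by
    funext w; simp only [n, hd a b h]
  have hk1 : (k' + 1) % G.F.N = (k + 1) % G.F.N := by rw [Nat.add_mod, hk, ← Nat.add_mod]
  funext t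
  unfold Fmap yb pt e lev tau Bdd top
  rw [hn _ _ hk, hn _ _ hj, hd _ _ hk, hd _ _ hk1]

/-- Two band points of neighbouring directions are never in opposite order. -/
lemma order (hH : 0 ≤ H) (k : ℕ) : ∃ C0, 0 < C0 ∧ ∀ y z, G.Band H k y → 0 ≤ G.n k y →
    G.Band H (k + 1) z → 0 ≤ G.n (k + 1) z →
    C0 ≤ G.tau (k + 1) (G.n (k + 1) y) → C0 ≤ G.tau k (G.n k z) →
    G.n k y ≤ G.n k z → G.n (k + 1) z ≤ G.n (k + 1) y → False := by
  set u := G.F.dir k
  set u' := G.F.dir (k + 1)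
  set r := cross u u'
  have hr : 0 < r := G.F.cross_succ k
  obtain ⟨T1, hT1⟩ := G.deep H k (k + 1) ((H + |G.sc k u'| * H) / r + 1)
  obtain ⟨T2, hT2⟩ := G.deep H (k + 1) k ((H + |G.sc (k + 1) u| * H) / r + 1)
  refine ⟨max (max T1 T2 + 1) 1, lt_max_of_lt_right one_pos,
    fun y z hy hy0 hz hz0 hyt hzt h1 h2 => ?_⟩
  have dy := hT1 y hy hy0 (lt_of_lt_of_le (by
    linarith [le_max_left T1 T2, le_max_left (max T1 T2 + 1) 1]) hyt)
  have dz := hT2 z hz hz0 (lt_of_lt_of_le (by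
    linarith [le_max_right T1 T2, le_max_left (max T1 T2 + 1) 1]) hzt)
  have ey : G.xi y u' < -H := by
    rw [G.xi_decomp y k]
    have hn : G.n k u' = -r := rfl
    rw [hn]
    have : |G.sc k u' * G.xi y u| ≤ |G.sc k u'| * H := by
      rw [abs_mul]; exact mul_le_mul_of_nonneg_left hy.2 (abs_nonneg _)
    have hd : H + |G.sc k u'| * H < r * G.xi y (G.e k) := by
      have := mul_lt_mul_of_pos_left dy hr
      rw [mul_add, mul_div_cancel₀ _ hr.ne'] at this
      linarith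
    linarith [le_abs_self (G.sc k u' * G.xi y u)]
  have ez : H < G.xi z u := by
    rw [G.xi_decomp z (k + 1)]
    have hn : G.n (k + 1) u = r := by simp only [n, r]; rw [← cross_comm]
    rw [hn]
    have : |G.sc (k + 1) u * G.xi z u'| ≤ |G.sc (k + 1) u| * H := by
      rw [abs_mul]; exact mul_le_mul_of_nonneg_left hz.2 (abs_nonneg _)
    have hd : H + |G.sc (k + 1) u| * H < r * G.xi z (G.e (k + 1)) := by
      have := mul_lt_mul_of_pos_left dz hr
      rw [mul_add, mul_div_cancel₀ _ hr.ne'] at this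
      linarith
    linarith [neg_abs_le (G.sc (k + 1) u * G.xi z u')]
  have hyu := abs_le.1 hy.2
  have hzu := abs_le.1 hz.2
  have hne : y ≠ z := fun e => by
    rw [← e] at ez
    linarith
  have hm := G.mono hy.1 hz.1 hne
  have hp : cross (z - y) u' ≤ 0 := by
    have : cross (z - y) u' = G.n (k + 1) (z - y) := by simp only [n]; rw [← cross_comm]
    rw [this, n_sub]; linarith
  have hq : cross u (z - y) ≤ 0 := by
    have : cross u (z - y) = -G.n k (z - y) := by simp [n, u]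
    rw [this, n_sub]; linarith
  have e : ∀ w, r * G.xi w (z - y) = cross (z - y) u' * G.xi w u + cross u (z - y) * G.xi w u' :=
    fun w => by rw [← xi_smul, cross_decomp u u' (z - y), xi_add, xi_smul, xi_smul]
  have := mul_pos hr hm
  rw [mul_sub, e, e] at this
  have a1 : cross (z - y) u' * (G.xi z u - G.xi y u) ≤ 0 :=
    mul_nonpos_of_nonpos_of_nonneg hp (by linarith)
  have a2 : cross u (z - y) * (G.xi z u' - G.xi y u') ≤ 0 :=
    mul_nonpos_of_nonpos_of_nonneg hq (by linarith)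
  linarith

/-- Compatible increasing reparametrisation of two neighbouring levels. -/
lemma exists_step (hH : 0 ≤ H) (k : ℕ) : ∃ T : ℝ ≃o ℝ, ∀ᶠ t in atTop,
    G.Fmap H k (k + 1) t < T t ∧ G.Fmap H (k + 1) k (T t) < t := by
  obtain ⟨C0, hC0, hord⟩ := G.order H hH k
  have mk : ∀ a b, ∃ P : ℝ ≃o ℝ, ∀ t, P t = t + G.Fmap H a b t := by
    intro a b
    have hm : StrictMono fun t => t + G.Fmap H a b t :=
      strictMono_id.add_monotone (G.Fmap_mono H hH a b)
    have hc : Continuous fun t => t + G.Fmap H a b t := continuous_id.add (G.continuous_Fmap H a b)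
    refine ⟨StrictMono.orderIsoOfSurjective _ hm (hc.surjective ?_ ?_), fun t => rfl⟩
    · exact tendsto_atTop_mono (fun t => le_add_of_nonneg_right (G.Fmap_nonneg H hH a b t))
        tendsto_id
    · refine tendsto_atBot_mono' _ ?_ (tendsto_atBot_add_const_right _ (G.Fmap H a b 0) tendsto_id)
      filter_upwards [eventually_le_atBot (0 : ℝ)] with t ht
      exact add_le_add_right (G.Fmap_mono H hH a b ht) t
  obtain ⟨P, hP⟩ := mk k (k + 1)
  obtain ⟨Q, hQ⟩ := mk (k + 1) k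
  refine ⟨P.trans Q.symm, ?_⟩
  filter_upwards [eventually_ge_atTop C0, (P.trans Q.symm).tendsto_atTop.eventually
    (eventually_ge_atTop C0)] with t ht hβ
  set β := (P.trans Q.symm) t
  have heq : β + G.Fmap H (k + 1) k β = t + G.Fmap H k (k + 1) t := by
    rw [← hQ, ← hP]; simp [β]
  suffices h : G.Fmap H k (k + 1) t < β by exact ⟨h, by linarith⟩
  by_contra hle
  push Not at hle
  obtain ⟨y, hy, hy0, -, hyl, hye⟩ := G.exists_Fmap H hH k (k + 1) t
  obtain ⟨z, hz, hz0, -, hzl, hze⟩ := G.exists_Fmap H hH (k + 1) k β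
  refine hord y z hy hy0 hz hz0 (by linarith) (by linarith) ?_ ?_
  · exact hyl.trans (G.lev_le_of_le_tau hz.1 (by linarith) (by linarith))
  · exact hzl.trans (G.lev_le_of_le_tau hy.1 (by linarith) (by linarith))

/-- Along the edge band, every transversal level is bounded. -/
lemma edge (hH : 0 ≤ H) (j : ℕ) (hj : G.n j (1, 0) ≠ 0) :
    ∃ C, ∀ w, G.Band H 0 w → 0 ≤ G.n 0 w → G.tau j (G.n j w) ≤ C := by
  have hcoord : ∀ b ∈ Set.Icc (0 : ℝ) G.σ, ∀ i, 0 ≤ G.x (0, -b) i ∧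
      (G.L (1, 0) i ≠ 0 → 0 < G.x (0, -b) i) := by
    intro b hb i
    have e : G.x (0, -b) i = (1 - b / G.σ) * G.c i + b / G.σ * (G.c i + G.L (0, -G.σ) i) := by
      have : ((0, -b) : ℝ × ℝ) = (b / G.σ) • ((0, -G.σ) : ℝ × ℝ) := by
        ext <;> simp; field_simp [G.σ_pos.ne']
      simp only [x, this, map_smul, Pi.smul_apply, smul_eq_mul]
      ring
    have h1 : 0 ≤ 1 - b / G.σ := sub_nonneg.2 ((div_le_one G.σ_pos).2 hb.2)
    have h2 : 0 ≤ b / G.σ := div_nonneg hb.1 G.σ_pos.le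
    refine ⟨e ▸ add_nonneg (mul_nonneg h1 (G.cpos i).le) (mul_nonneg h2 (G.edge_pt i).1),
      fun hi => ?_⟩
    rw [e]
    rcases h2.eq_or_lt with h | h
    · rw [← h]; simpa using G.cpos i
    · exact add_pos_of_nonneg_of_pos (mul_nonneg h1 (G.cpos i).le) (mul_pos h ((G.edge_pt i).2 hi))
  have hdom : ∀ b ∈ Set.Icc (0 : ℝ) G.σ,
      G.sc 0 (0, -b) ∈ lineDom (G.x (G.pt 0 b 0)) (G.L (G.F.dir 0)) := by
    intro b hb i hi
    rw [G.dir0] at hi
    have h := (hcoord b hb i).2 hi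
    have e : ((0, -b) : ℝ × ℝ) = G.pt 0 b (G.sc 0 (0, -b)) := by
      conv_lhs => rw [G.decomp 0 (0, -b)]
      simp [G.n0]
    rwa [e, x_pt] at h
  set K := Set.Icc (0 : ℝ) G.σ ×ˢ Set.Icc (-H) H
  have hK : IsCompact K := isCompact_Icc.prod isCompact_Icc
  have hc : ContinuousOn (fun q : ℝ × ℝ => G.n j (G.yb 0 q.1 q.2)) K :=
    (G.n_continuous j).comp_continuousOn
      ((G.continuousOn_yb 0).mono fun q hq => ⟨_, hdom q.1 hq.1⟩)
  obtain ⟨⟨b, h⟩, ⟨hb, hh⟩, hmax⟩ := hK.exists_isMaxOn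
    ⟨(0, 0), ⟨le_rfl, G.σ_pos.le⟩, by simpa using hH, hH⟩ hc
  set v := G.yb 0 b h
  have hvsup : ∀ i, G.L (1, 0) i ≠ 0 → 0 < G.x v i := fun i hi => by
    simp only [v, yb]
    rw [x_pt]
    exact (lineSol_spec (G.L_dir_ne 0) ⟨_, hdom b hb⟩ h).1 i (by rwa [G.dir0])
  have hvnn : ∀ i, 0 ≤ G.x v i := fun i => by
    by_cases hi : G.L (1, 0) i = 0
    · have h := (hcoord b hb i).1
      have e : ((0, -b) : ℝ × ℝ) = G.pt 0 b (G.sc 0 (0, -b)) := by
        conv_lhs => rw [G.decomp 0 (0, -b)]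
        simp [G.n0]
      rw [e, x_pt, G.dir0, hi, mul_zero] at h
      simp only [v, yb]
      rwa [x_pt, G.dir0, hi, mul_zero]
    · exact (hvsup i hi).le
  set g := G.n j v
  have hg : ∀ w, G.Band H 0 w → 0 ≤ G.n 0 w → G.n j w ≤ g := by
    intro w hw h0
    have hσ : G.n 0 w ≤ G.σ := by rw [G.n0]; exact (G.edge_le w hw.1).le
    have := hmax (show (G.n 0 w, G.xi w (G.F.dir 0)) ∈ K from ⟨⟨h0, hσ⟩, abs_le.1 hw.2⟩)
    change G.n j (G.yb 0 (G.n 0 w) (G.xi w (G.F.dir 0))) ≤ g at this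
    rwa [← G.eq_yb hw.1] at this
  by_cases hb : G.Bdd j
  · have hlt : g < G.top j := by
      have hev : ∀ᶠ s : ℝ in 𝓝 0, ∀ i, 0 ≤ G.x (v + s • ((1, 0) : ℝ × ℝ)) i := by
        rw [eventually_all]
        intro i
        have e : ∀ s : ℝ, G.x (v + s • ((1, 0) : ℝ × ℝ)) i = G.x v i + s * G.L (1, 0) i :=
          fun s => by simp only [x, map_add, map_smul, Pi.add_apply, Pi.smul_apply, smul_eq_mul]; ring
        simp only [e]
        by_cases hi : G.L (1, 0) i = 0
        · exact Eventually.of_forall fun s => by rw [hi, mul_zero, add_zero]; exact hvnn i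
        · have : ContinuousAt (fun s : ℝ => G.x v i + s * G.L (1, 0) i) 0 := by fun_prop
          exact (this.eventually (lt_mem_nhds (by simpa using hvsup i hi))).mono fun s hs => hs.le
      obtain ⟨δ, hδ, hball⟩ := Metric.eventually_nhds_iff.1 hev
      set s := if 0 < G.n j (1, 0) then δ / 2 else -(δ / 2)
      have hs : |s| < δ := by
        simp only [s]
        split <;> rw [abs_lt] <;> constructor <;> linarith
      have hpos : 0 < s * G.n j (1, 0) := by
        simp only [s]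
        rcases lt_or_gt_of_ne hj with h | h
        · rw [if_neg (not_lt.2 h.le)]; exact mul_pos_of_neg_of_neg (by linarith) h
        · rw [if_pos h]; positivity
      set v' := v + s • ((1, 0) : ℝ × ℝ)
      have hv' : ∀ i, 0 ≤ G.x v' i := hball (by simpa [Real.dist_eq] using hs)
      have hle : G.n j v' ≤ G.top j := by
        have hr : ∀ r : ℝ, r ∈ Set.Ico (0 : ℝ) 1 → r * G.n j v' ≤ G.top j := by
          intro r hr
          have hm : r • v' ∈ G.P := fun i => by
            have : G.x (r • v') i = (1 - r) * G.c i + r * G.x v' i := by simp [x]; ring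
            rw [this]
            exact add_pos_of_pos_of_nonneg (mul_pos (sub_pos.2 hr.2) (G.cpos i))
              (mul_nonneg hr.1 (hv' i))
          rw [← n_smul]
          exact (G.lt_top' hb hm).le
        by_contra hgt
        push Not at hgt
        have ht := G.top_pos hb
        have hn : 0 < G.n j v' := ht.trans hgt
        have := hr ((G.top j + G.n j v') / (2 * G.n j v')) ⟨by positivity, by
          rw [div_lt_one (by positivity)]; linarith⟩
        rw [div_mul_eq_mul_div, div_le_iff₀ (by positivity)] at this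
        nlinarith
      have : G.n j v' = g + s * G.n j (1, 0) := by simp only [v', g, n_add, n_smul]
      linarith
    refine ⟨max g 0 / (G.top j - g), fun w hw h0 => ?_⟩
    unfold tau
    rw [if_pos hb]
    exact div_le_div₀ (le_max_right _ _) (max_le_max_right _ (hg w hw h0)) (sub_pos.2 hlt)
      (by linarith [hg w hw h0])
  · refine ⟨max g 0, fun w hw h0 => ?_⟩
    unfold tau
    rw [if_neg hb]
    exact max_le_max_right _ (hg w hw h0)

end Frame

end Vale.Agent.P072
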