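import Vale.Agent.P072.Build

/-! Sublevels of the potential are invariant and the lowest one attracts. -/

noncomputable section

namespace Vale.Agent.P072

open MeasureTheory Filter Topology Finset

variable {d : ℕ}

namespace Frame

variable (G : Frame d) (R : Finset (Reaction d)) (π : (Fin d → ℝ) →ₗ[ℝ] ℝ × ℝ)

/-- Planar velocity. -/
def vel (κ : Reaction d → ℝ) (w : ℝ × ℝ) : ℝ × ℝ := π (field R κ (G.x w))

/-- Monomial of a reaction at a planar point. -/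
def mon (r : Reaction d) (w : ℝ × ℝ) : ℝ := ∏ i, G.x w i ^ r.1 i

/-- Largest velocity of the `k`-th level over all admissible rates. -/
def up (ε : ℝ) (k : ℕ) (w : ℝ × ℝ) : ℝ :=
  ∑ r ∈ R, G.mon r w * max (ε * G.n k (π (vec r))) (ε⁻¹ * G.n k (π (vec r)))

/-- A speed bound over all admissible rates. -/
def spd (ε : ℝ) (w : ℝ × ℝ) : ℝ := ∑ r ∈ R, ε⁻¹ * (G.mon r w * ‖π (vec r)‖)

lemma continuous_mon (r : Reaction d) : Continuous (G.mon r) :=
  continuous_finset_prod _ fun i _ => (continuous_pi_iff.1 G.continuous_x i).pow _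

lemma mon_pos (r : Reaction d) {w : ℝ × ℝ} (hw : w ∈ G.P) : 0 < G.mon r w :=
  Finset.prod_pos fun i _ => pow_pos (hw i) _

lemma continuous_up (ε : ℝ) (k : ℕ) : Continuous (G.up R π ε k) :=
  continuous_finsetSum _ fun r _ => (G.continuous_mon r).mul continuous_const

lemma continuous_spd (ε : ℝ) : Continuous (G.spd R π ε) :=
  continuous_finsetSum _ fun r _ => continuous_const.mul ((G.continuous_mon r).mul continuous_const)

lemma vel_eq (κ : Reaction d → ℝ) (w : ℝ × ℝ) :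
    G.vel R π κ w = ∑ r ∈ R, (κ r * G.mon r w) • π (vec r) := by
  simp [vel, field, mon, map_sum, map_smul]

lemma n_vel (k : ℕ) (κ : Reaction d → ℝ) (w : ℝ × ℝ) :
    G.n k (G.vel R π κ w) = ∑ r ∈ R, (κ r * G.mon r w) * G.n k (π (vec r)) := by
  show G.nl k (G.vel R π κ w) = _
  rw [vel_eq, map_sum]
  refine Finset.sum_congr rfl fun r _ => ?_
  rw [map_smul, smul_eq_mul]
  rfl

lemma n_vel_le {ε : ℝ} (k : ℕ) {κ : Reaction d → ℝ} (hκ : ∀ r ∈ R, κ r ∈ Set.Icc ε ε⁻¹)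
    {w : ℝ × ℝ} (hw : w ∈ G.P) : G.n k (G.vel R π κ w) ≤ G.up R π ε k w := by
  rw [n_vel]
  refine Finset.sum_le_sum fun r hr => ?_
  rw [mul_comm (κ r), mul_assoc]
  refine mul_le_mul_of_nonneg_left ?_ (G.mon_pos r hw).le
  rcases le_total 0 (G.n k (π (vec r))) with h | h
  · exact (mul_le_mul_of_nonneg_right (hκ r hr).2 h).trans (le_max_right _ _)
  · exact (mul_le_mul_of_nonpos_right (hκ r hr).1 h).trans (le_max_left _ _)

lemma norm_vel_le {ε : ℝ} (hε : 0 < ε) {κ : Reaction d → ℝ}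
    (hκ : ∀ r ∈ R, κ r ∈ Set.Icc ε ε⁻¹) {w : ℝ × ℝ} (hw : w ∈ G.P) :
    ‖G.vel R π κ w‖ ≤ G.spd R π ε w := by
  rw [vel_eq]
  refine (norm_sum_le _ _).trans (Finset.sum_le_sum fun r hr => ?_)
  rw [norm_smul, Real.norm_of_nonneg (mul_nonneg (hε.le.trans (hκ r hr).1) (G.mon_pos r hw).le),
    mul_assoc]
  exact mul_le_mul_of_nonneg_right (hκ r hr).2 (mul_nonneg (G.mon_pos r hw).le (norm_nonneg _))

/-- If all admissible velocities of a level are negative, so is the largest one. -/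
lemma up_neg {ε : ℝ} (hε : 0 < ε) (hε1 : ε ≤ 1) {k : ℕ} {w : ℝ × ℝ}
    (h : ∀ κ : Reaction d → ℝ, (∀ r ∈ R, κ r ∈ Set.Icc ε ε⁻¹) → G.n k (G.vel R π κ w) < 0) :
    G.up R π ε k w < 0 := by
  have he : ε ≤ ε⁻¹ := hε1.trans ((one_le_inv₀ hε).2 hε1)
  set κ : Reaction d → ℝ := fun r => if 0 ≤ G.n k (π (vec r)) then ε⁻¹ else ε
  have := h κ fun r _ => by
    simp only [κ]; split
    · exact ⟨he, le_rfl⟩
    · exact ⟨le_rfl, he⟩
  rw [n_vel] at this
  refine lt_of_eq_of_lt (Finset.sum_congr rfl fun r _ => ?_) this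
  simp only [κ]
  split
  · next h0 => rw [max_eq_right (mul_le_mul_of_nonneg_right he h0)]; ring
  · next h0 => rw [max_eq_left (mul_le_mul_of_nonpos_right he (not_le.1 h0).le)]; ring

/-- A planar solution on `[a, b]`. -/
structure Sol (k : ℝ → Reaction d → ℝ) (w : ℝ → ℝ × ℝ) (a b : ℝ) : Prop where
  le : a ≤ b
  mem : ∀ t ∈ Set.Icc a b, w t ∈ G.P
  int : IntervalIntegrable (fun s => G.vel R π (k s) (w s)) volume a b
  eqn : ∀ t ∈ Set.Icc a b, w t = w a + ∫ s in a..t, G.vel R π (k s) (w s)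

variable {G R π} {k : ℝ → Reaction d → ℝ} {w : ℝ → ℝ × ℝ} {a b : ℝ}

lemma Sol.continuousOn (h : G.Sol R π k w a b) : ContinuousOn w (Set.Icc a b) := by
  refine ContinuousOn.congr (continuousOn_const.add ?_) h.eqn
  have := intervalIntegral.continuousOn_primitive_interval' h.int Set.left_mem_uIcc
  rwa [Set.uIcc_of_le h.le] at this

lemma Sol.intg (h : G.Sol R π k w a b) {s t : ℝ} (hs : a ≤ s) (hst : s ≤ t) (ht : t ≤ b) :
    IntervalIntegrable (fun s => G.vel R π (k s) (w s)) volume s t :=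
  h.int.mono_set (by
    rw [Set.uIcc_of_le hst, Set.uIcc_of_le h.le]; exact Set.Icc_subset_Icc hs ht)

lemma Sol.incr (h : G.Sol R π k w a b) {s t : ℝ} (hs : a ≤ s) (hst : s ≤ t) (ht : t ≤ b) :
    w t = w s + ∫ u in s..t, G.vel R π (k u) (w u) := by
  rw [h.eqn t ⟨hs.trans hst, ht⟩, h.eqn s ⟨hs, hst.trans ht⟩, add_assoc,
    intervalIntegral.integral_add_adjacent_intervals (h.intg le_rfl hs (hst.trans ht))
      (h.intg hs hst ht)]

lemma Sol.restrict (h : G.Sol R π k w a b) {s t : ℝ} (hs : a ≤ s) (hst : s ≤ t) (ht : t ≤ b) :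
    G.Sol R π k w s t :=
  ⟨hst, fun u hu => h.mem u ⟨hs.trans hu.1, hu.2.trans ht⟩, h.intg hs hst ht,
    fun u hu => h.incr hs hu.1 (hu.2.trans ht)⟩

lemma Sol.level_le (h : G.Sol R π k w a b) {ε : ℝ}
    (hk : ∀ u ∈ Set.Icc a b, ∀ r ∈ R, k u r ∈ Set.Icc ε ε⁻¹) {j : ℕ} {c : ℝ}
    (hc : ∀ u ∈ Set.Icc a b, G.up R π ε j (w u) ≤ -c) :
    G.n j (w b) ≤ G.n j (w a) - c * (b - a) := by
  set g : ℝ × ℝ →L[ℝ] ℝ := LinearMap.toContinuousLinearMap (G.nl j)
  have hg : ∀ v, g v = G.n j v := fun v => rfl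
  have e := congrArg g (h.eqn b (Set.right_mem_Icc.2 h.le))
  rw [map_add, ← g.intervalIntegral_comp_comm h.int, hg, hg] at e
  have hb : (∫ u in a..b, g (G.vel R π (k u) (w u))) ≤ ∫ _ in a..b, -c := by
    refine intervalIntegral.integral_mono_on h.le ?_ intervalIntegrable_const fun u hu => ?_
    · exact ⟨g.integrable_comp h.int.1, g.integrable_comp h.int.2⟩
    · exact (G.n_vel_le R π j (hk u hu) (h.mem u hu)).trans (hc u hu)
  rw [intervalIntegral.integral_const, smul_eq_mul] at hb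
  linarith

lemma Sol.dist_le (h : G.Sol R π k w a b) {ε : ℝ} (hε : 0 < ε)
    (hk : ∀ u ∈ Set.Icc a b, ∀ r ∈ R, k u r ∈ Set.Icc ε ε⁻¹) {M : ℝ}
    (hM : ∀ u ∈ Set.Icc a b, G.spd R π ε (w u) ≤ M) : dist (w b) (w a) ≤ M * (b - a) := by
  rw [dist_eq_norm, h.eqn b (Set.right_mem_Icc.2 h.le), add_sub_cancel_left]
  refine (intervalIntegral.norm_integral_le_of_norm_le_const (C := M) fun u hu => ?_).trans
    (le_of_eq (by rw [abs_of_nonneg (sub_nonneg.2 h.le)]))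
  rw [Set.uIoc_of_le h.le] at hu
  have hu' := Set.Ioc_subset_Icc_self hu
  exact (G.norm_vel_le R π hε (hk u hu') (h.mem u hu')).trans (hM u hu')

variable (G R π) (lvl : ℕ → (ℝ ≃o ℝ))

/-- Above `R₀`, every active level strictly decreases. -/
def Good (ε R₀ : ℝ) : Prop :=
  ∀ ρ, R₀ ≤ ρ → ∀ w ∈ G.P, G.V lvl w ≤ ρ → ∀ j < G.F.N, G.tau j (G.n j w) = lvl j ρ →
    0 < lvl j ρ ∧ G.up R π ε j w < 0

lemma exists_good {ε : ℝ} (hε : 0 < ε) (hε1 : ε ≤ 1) {H : ℝ} (hH : 0 < H)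
    (hwidth : ∀ k, ∀ w ∈ G.P, H < G.xi w (G.F.dir (G.F.prv k)) →
      G.xi w (G.F.dir (k + 1)) < -H → ∀ κ : Reaction d → ℝ, (∀ r ∈ R, κ r ∈ Set.Icc ε ε⁻¹) →
        G.n k (π (field R κ (G.x w))) < 0)
    (hmod : ∀ k, lvl (k % G.F.N) = lvl k)
    (hsep : ∀ k, ∀ᶠ R in atTop, G.Fmap H k (k + 1) (lvl k R) < lvl (k + 1) R ∧
      G.Fmap H (k + 1) k (lvl (k + 1) R) < lvl k R) :
    ∃ R₀, G.Good R π lvl ε R₀ := by
  have hev : ∀ᶠ ρ in atTop, ∀ j ∈ (range G.F.N : Set ℕ),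
      (∀ w ∈ G.P, G.V lvl w ≤ ρ → G.tau j (G.n j w) = lvl j ρ →
        H < G.xi w (G.F.dir (G.F.prv j)) ∧ G.xi w (G.F.dir (j + 1)) < -H) ∧ 0 < lvl j ρ :=
    ((Finset.finite_toSet _).eventually_all).2 fun j _ => (G.active H lvl hH hmod hsep j).and
      ((lvl j).tendsto_atTop.eventually (eventually_gt_atTop 0))
  obtain ⟨R₀, h⟩ := eventually_atTop.1 hev
  refine ⟨R₀, fun ρ hρ w hw hV j hj hact => ?_⟩
  obtain ⟨h1, h2⟩ := h ρ hρ j (by simpa using hj)
  obtain ⟨hi, hi'⟩ := h1 w hw hV hact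
  exact ⟨h2, G.up_neg R π hε hε1 fun κ hκ => hwidth j w hw hi hi' κ hκ⟩

variable {G R π lvl}

/-- High sublevels are forward invariant. -/
theorem Sol.invariant (h : G.Sol R π k w a b) {ε R₀ : ℝ} (hgood : G.Good R π lvl ε R₀)
    (hk : ∀ u ∈ Set.Icc a b, ∀ r ∈ R, k u r ∈ Set.Icc ε ε⁻¹) {ρ : ℝ} (hρ : R₀ ≤ ρ)
    (h0 : G.V lvl (w a) ≤ ρ) : ∀ t ∈ Set.Icc a b, G.V lvl (w t) ≤ ρ := by
  set S := {t | G.V lvl (w t) ≤ ρ}
  have hc := h.continuousOn
  have hclosed : IsClosed (S ∩ Set.Icc a b) := by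
    rw [Set.inter_comm]
    exact ((G.continuousOn_V lvl).comp hc h.mem).preimage_isClosed_of_isClosed isClosed_Icc
      isClosed_Iic
  refine hclosed.Icc_subset_of_forall_mem_nhdsWithin h0 fun x ⟨hx, hxI⟩ => ?_
  have hxm : x ∈ Set.Icc a b := Set.Ico_subset_Icc_self hxI
  have hwc : ContinuousWithinAt w (Set.Ioi x) x :=
    (hc x hxm).mono_of_mem_nhdsWithin (mem_nhdsGT_iff_exists_Ioc_subset.2
      ⟨b, hxI.2, fun y hy => ⟨hxI.1.trans hy.1.le, hy.2⟩⟩)
  have hlev : ∀ j < G.F.N, ∀ᶠ t in 𝓝[>] x, G.tau j (G.n j (w t)) ≤ lvl j ρ := by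
    intro j hj
    rcases ((G.V_le_iff lvl).1 hx j hj).eq_or_lt with he | hlt
    · have hneg := (hgood ρ hρ (w x) (h.mem x hxm) hx j hj he).2
      have hev : ∀ᶠ u in 𝓝[>] x, G.up R π ε j (w u) < 0 :=
        ((G.continuous_up R π ε j).continuousAt.comp_continuousWithinAt hwc).tendsto.eventually
          (gt_mem_nhds hneg)
      obtain ⟨u, hu, hball⟩ := mem_nhdsGT_iff_exists_Ioc_subset.1 hev
      filter_upwards [Ioc_mem_nhdsGT (lt_min hu hxI.2)] with t ht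
      have hs := h.restrict hxI.1 ht.1.le (ht.2.trans (min_le_right _ _))
      have hle := hs.level_le (j := j) (c := 0)
        (fun u hu => hk u ⟨hxI.1.trans hu.1, hu.2.trans (ht.2.trans (min_le_right _ _))⟩)
        (fun v hv => by
          rw [neg_zero]
          rcases hv.1.eq_or_lt with e | e
          · rw [← e]; exact hneg.le
          · exact (hball ⟨e, hv.2.trans (ht.2.trans (min_le_left _ _))⟩).le)
      rw [zero_mul, sub_zero] at hle
      exact (G.tau_le_tau (h.mem x hxm) hle).trans he.le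
    · have : ∀ᶠ v in 𝓝 (w x), G.tau j (G.n j v) < lvl j ρ :=
        ((G.continuousOn_tau_n j).continuousAt (G.isOpen_P.mem_nhds (h.mem x hxm))).tendsto.eventually
          (gt_mem_nhds hlt)
      exact (hwc.tendsto.eventually this).mono fun t ht => ht.le
  filter_upwards [(Set.finite_lt_nat G.F.N).eventually_all.2 hlev] with t ht
  exact (G.V_le_iff lvl).2 ht

/-- The lowest good sublevel is eventually reached by every global solution. -/
theorem eventually_le (hsol : ∀ T, 0 ≤ T → G.Sol R π k w 0 T) {ε R₀ : ℝ} (hε : 0 < ε)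
    (hgood : G.Good R π lvl ε R₀) (hk : ∀ t, 0 ≤ t → ∀ r ∈ R, k t r ∈ Set.Icc ε ε⁻¹) :
    ∃ T₀, 0 ≤ T₀ ∧ ∀ t, T₀ ≤ t → G.V lvl (w t) ≤ R₀ := by
  have hinv : ∀ s t, 0 ≤ s → s ≤ t → ∀ ρ, R₀ ≤ ρ → G.V lvl (w s) ≤ ρ → G.V lvl (w t) ≤ ρ :=
    fun s t hs hst ρ hρ hV => ((hsol t (hs.trans hst)).restrict hs hst le_rfl).invariant hgood
      (fun u hu => hk u (hs.trans hu.1)) hρ hV t (Set.right_mem_Icc.2 hst)
  by_cases hex : ∃ s, 0 ≤ s ∧ G.V lvl (w s) ≤ R₀
  · obtain ⟨s, hs, hV⟩ := hex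
    exact ⟨s, hs, fun t ht => hinv s t hs ht R₀ le_rfl hV⟩
  exfalso
  push Not at hex
  have hmem : ∀ t, 0 ≤ t → w t ∈ G.P := fun t ht => (hsol t ht).mem t (Set.right_mem_Icc.2 ht)
  set z : ℕ → ℝ × ℝ := fun n => w n
  have hz0 : ∀ n : ℕ, (0 : ℝ) ≤ n := fun n => Nat.cast_nonneg n
  have hmono : ∀ s t, 0 ≤ s → s ≤ t → G.V lvl (w t) ≤ G.V lvl (w s) := fun s t hs hst =>
    hinv s t hs hst _ (hex s hs).le le_rfl
  obtain ⟨Q, hQP, hQ, hQm⟩ := G.sublevel lvl (G.V lvl (w 0))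
  have hzQ : ∀ t, 0 ≤ t → w t ∈ Q := fun t ht => hQm _ (hmem t ht) (hmono 0 t le_rfl ht)
  obtain ⟨p, hpQ, φ, hφ, hlim⟩ := hQ.tendsto_subseq (x := z) fun n => hzQ n (hz0 n)
  have hpP := hQP hpQ
  set ℓ := G.V lvl p
  have hVlim : Tendsto (fun n => G.V lvl (z (φ n))) atTop (𝓝 ℓ) :=
    ((G.continuousOn_V lvl).continuousAt (G.isOpen_P.mem_nhds hpP)).tendsto.comp hlim
  have hlow : ∀ t, 0 ≤ t → ℓ ≤ G.V lvl (w t) := fun t ht => by
    refine le_of_tendsto hVlim ?_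
    filter_upwards [(tendsto_natCast_atTop_atTop.comp hφ.tendsto_atTop).eventually
      (eventually_ge_atTop t)] with n hn
    exact hmono t _ ht hn
  have hR : R₀ ≤ ℓ := ge_of_tendsto' hVlim fun n => (hex _ (hz0 _)).le
  -- a neighbourhood in which every level is strictly below or strictly decreasing
  have hloc : ∀ j, ∃ c > 0, j < G.F.N → ∀ᶠ v in 𝓝 p, (G.tau j (G.n j p) ≠ lvl j ℓ ∧
      G.tau j (G.n j v) < lvl j ℓ) ∨ G.tau j (G.n j p) = lvl j ℓ ∧ G.up R π ε j v ≤ -c := by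
    intro j
    by_cases hj : j < G.F.N
    swap
    · exact ⟨1, one_pos, fun h => absurd h hj⟩
    rcases ((G.V_le_iff lvl).1 (le_refl ℓ) j hj).eq_or_lt with he | hlt
    · have hneg := (hgood ℓ hR p hpP le_rfl j hj he).2
      refine ⟨-G.up R π ε j p / 2, by linarith, fun _ => ?_⟩
      filter_upwards [(G.continuous_up R π ε j).continuousAt.eventually
        (gt_mem_nhds (show G.up R π ε j p < G.up R π ε j p / 2 by linarith))] with v hv
      exact Or.inr ⟨he, by linarith⟩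
    · refine ⟨1, one_pos, fun _ => ?_⟩
      filter_upwards [((G.continuousOn_tau_n j).continuousAt (G.isOpen_P.mem_nhds hpP)).eventually
        (gt_mem_nhds hlt)] with v hv
      exact Or.inl ⟨hlt.ne, hv⟩
  choose c hc hev using hloc
  have hall : ∀ᶠ v in 𝓝 p, ∀ j, j ∈ {j | j < G.F.N} →
      (G.tau j (G.n j p) ≠ lvl j ℓ ∧ G.tau j (G.n j v) < lvl j ℓ) ∨ G.tau j (G.n j p) = lvl j ℓ ∧ G.up R π ε j v ≤ -c j :=
    (Set.finite_lt_nat G.F.N).eventually_all.2 hev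
  obtain ⟨η, hη, hball⟩ := Metric.eventually_nhds_iff.1 hall
  obtain ⟨M₀, hM₀⟩ := hQ.exists_bound_of_continuousOn (G.continuous_spd R π ε).continuousOn
  set M := max M₀ 1
  have hMp : 0 < M := lt_of_lt_of_le one_pos (le_max_right _ _)
  set δ := η / (2 * M)
  have hδ : 0 < δ := by positivity
  have hMδ : M * δ = η / 2 := by simp only [δ]; field_simp
  have hsel : ∀ᶠ n in atTop, dist (z (φ n)) p < η / 2 ∧
      ∀ j, j ∈ {j | j < G.F.N} → G.n j (z (φ n)) < G.n j p + c j * δ := by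
    refine (hlim.eventually (Metric.ball_mem_nhds p (half_pos hη))).and ?_
    refine (Set.finite_lt_nat G.F.N).eventually_all.2 fun j hj => ?_
    exact ((G.n_continuous j).tendsto p |>.comp hlim).eventually
      (gt_mem_nhds (lt_add_of_pos_right _ (mul_pos (hc j) hδ)))
  obtain ⟨n, hn1, hn2⟩ := hsel.exists
  set t₀ : ℝ := (φ n : ℝ)
  have ht₀ : 0 ≤ t₀ := hz0 _
  have hS := (hsol (t₀ + δ) (by linarith)).restrict ht₀ (le_add_of_nonneg_right hδ.le) le_rfl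
  have hkI : ∀ u ∈ Set.Icc t₀ (t₀ + δ), ∀ r ∈ R, k u r ∈ Set.Icc ε ε⁻¹ :=
    fun u hu => hk u (ht₀.trans hu.1)
  have hin : ∀ u ∈ Set.Icc t₀ (t₀ + δ), dist (w u) p < η := by
    intro u hu
    have h1 := (hS.restrict le_rfl hu.1 hu.2).dist_le hε
      (fun v hv => hkI v ⟨hv.1, hv.2.trans hu.2⟩) (M := M) fun v hv =>
        (le_abs_self _).trans ((hM₀ _ (hzQ v (ht₀.trans hv.1))).trans (le_max_left _ _))
    have h2 : M * (u - t₀) ≤ η / 2 := by
      rw [← hMδ]; exact mul_le_mul_of_nonneg_left (by linarith [hu.2]) hMp.le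
    calc dist (w u) p ≤ dist (w u) (w t₀) + dist (w t₀) p := dist_triangle _ _ _
      _ < η / 2 + η / 2 := add_lt_add_of_le_of_lt (h1.trans h2) hn1
      _ = η := add_halves η
  have hlt : G.V lvl (w (t₀ + δ)) < ℓ := by
    rw [V, Finset.sup'_lt_iff]
    intro j hj
    rw [Finset.mem_range] at hj
    rw [OrderIso.symm_apply_lt]
    have hend := hball (hin _ (Set.right_mem_Icc.2 hS.le)) j hj
    rcases hend with ⟨-, hlt⟩ | ⟨he, -⟩
    · exact hlt
    have hpos := (hgood ℓ hR p hpP le_rfl j hj he).1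
    have hsub : ∀ u ∈ Set.Icc t₀ (t₀ + δ), G.up R π ε j (w u) ≤ -c j := fun u hu => by
      rcases hball (hin u hu) j hj with ⟨hne, -⟩ | ⟨-, hle⟩
      · exact absurd he hne
      · exact hle
    have hdec := hS.level_le hkI hsub
    rw [add_sub_cancel_left] at hdec
    have hn : G.n j (w (t₀ + δ)) < G.n j p := by linarith [hn2 j hj]
    by_contra hge
    push Not at hge
    have h1 := G.lev_le_of_le_tau (hmem _ (by linarith)) hpos hge
    have h2 := G.le_lev_of_tau_le hpP he.le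
    linarith
  exact absurd (hlow _ (by linarith)) (not_le.2 hlt)

end Frame

end Vale.Agent.P072
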