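import Vale.Agent.P072.Potential

/-! A planar frame for a two-dimensional stoichiometric subspace and the width of the bands. -/

noncomputable section

namespace Vale.Agent.P072

open Finset

variable {d : ℕ}

/-- A direction with no accidental ties between the rows. -/
lemma exists_generic (a b : Fin d → ℝ) {c : Fin d → ℝ} (hab : ∃ i, a i ≠ 0 ∨ b i ≠ 0) :
    ∃ t : ℝ, (∃ i, a i + t * b i ≠ 0) ∧
      ∀ i j, c j * (a i + t * b i) = c i * (a j + t * b j) →
        c j * a i = c i * a j ∧ c j * b i = c i * b j := by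
  classical
  set Bad : Finset ℝ := (univ.image fun p : Fin d × Fin d =>
      -(c p.2 * a p.1 - c p.1 * a p.2) / (c p.2 * b p.1 - c p.1 * b p.2)) ∪
    univ.image fun i => -a i / b i
  obtain ⟨t, ht⟩ := Infinite.exists_notMem_finset Bad
  simp only [Bad, Finset.mem_union, Finset.mem_image, Finset.mem_univ, true_and, not_or,
    not_exists] at ht
  refine ⟨t, ?_, fun i j hij => ?_⟩
  · obtain ⟨i, hi⟩ := hab
    refine ⟨i, fun h => ?_⟩
    by_cases hb : b i = 0
    · rw [hb, mul_zero, add_zero] at h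
      simp [h, hb] at hi
    · exact ht.2 i (by rw [div_eq_iff hb]; linarith)
  · have hb : c j * b i = c i * b j := by
      by_contra hne
      apply ht.1 (i, j)
      rw [div_eq_iff (sub_ne_zero.2 hne)]
      linarith
    exact ⟨by linear_combination hij - t * hb, hb⟩

/-- Every two-dimensional positive class carries a frame containing all the cut directions. -/
theorem exists_frame (R : Finset (Reaction d)) (hS : Module.finrank ℝ (stoich R) = 2)
    {c : Fin d → ℝ} (hc : ∀ i, 0 < c i) :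
    ∃ G : Frame d, G.c = c ∧ LinearMap.range G.L = stoich R ∧
      ∀ v ∈ diffs R, v ≠ 0 → ∃ i, ∃ r : ℝ, 0 < r ∧ v = r • G.L (G.F.dir i) := by
  classical
  set bs := Module.finBasisOfFinrankEq ℝ (stoich R) hS
  set f : Fin d → ℝ := (bs 0 : Fin d → ℝ)
  set g : Fin d → ℝ := (bs 1 : Fin d → ℝ)
  have hind : ∀ p q : ℝ, p • f + q • g = 0 → p = 0 ∧ q = 0 := by
    intro p q h
    have h' : p • bs 0 + q • bs 1 = 0 := Subtype.ext (by simpa using h)
    have := Fintype.linearIndependent_iff.1 bs.linearIndependent ![p, q]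
      (by simpa [Fin.sum_univ_two] using h')
    exact ⟨this 0, this 1⟩
  obtain ⟨t, ht, hgen⟩ := exists_generic (c := c) f g (by
    by_contra hall
    push Not at hall
    have := hind 1 0 (by ext i; simp [(hall i).1])
    exact one_ne_zero this.1)
  -- orient the direction
  obtain ⟨s, hs, i₁, hi₁⟩ : ∃ s : ℝ, (s = 1 ∨ s = -1) ∧ ∃ i, 0 < s * (f i + t * g i) := by
    obtain ⟨i, hi⟩ := ht
    rcases lt_or_gt_of_ne hi with h | h
    · exact ⟨-1, Or.inr rfl, i, by linarith⟩
    · exact ⟨1, Or.inl rfl, i, by linarith⟩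
  have hs0 : s ≠ 0 := by rcases hs with h | h <;> rw [h] <;> norm_num
  set u : Fin d → ℝ := fun i => s * (f i + t * g i)
  obtain ⟨k, -, hk⟩ := univ.exists_max_image (fun i => u i / c i) ⟨i₁, mem_univ _⟩
  have huk : 0 < u k := by
    have h := hk i₁ (mem_univ _)
    have h1 : 0 < u i₁ / c i₁ := div_pos hi₁ (hc _)
    exact (div_pos_iff_of_pos_right (hc k)).1 (h1.trans_le h)
  set δ : Fin d → ℝ := g k • f - f k • g
  set L : ℝ × ℝ →ₗ[ℝ] (Fin d → ℝ) :=
    (LinearMap.fst ℝ ℝ ℝ).smulRight δ + (LinearMap.snd ℝ ℝ ℝ).smulRight u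
  have hL : ∀ w i, L w i = w.1 * δ i + w.2 * u i := fun w i => by simp [L]
  have hδk : δ k = 0 := by simp [δ]; ring
  have hinj : Function.Injective L := by
    rw [← LinearMap.ker_eq_bot, LinearMap.ker_eq_bot']
    intro w hw
    have h2 : w.2 = 0 := by
      have := congrFun hw k
      rw [hL, hδk, mul_zero, zero_add, Pi.zero_apply] at this
      exact (mul_eq_zero.1 this).resolve_right huk.ne'
    have h1 : (w.1 * g k) • f + (-(w.1 * f k)) • g = 0 := by
      funext i
      have := congrFun hw i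
      rw [hL, h2, zero_mul, add_zero, Pi.zero_apply] at this
      simp [δ] at this ⊢
      rcases this with h | h
      · simp [h]
      · linear_combination w.1 * h
    obtain ⟨a1, a2⟩ := hind _ _ h1
    refine Prod.ext ?_ h2
    by_contra hne
    have hgk : g k = 0 := (mul_eq_zero.1 a1).resolve_left hne
    have hfk : f k = 0 := (mul_eq_zero.1 (neg_eq_zero.1 a2)).resolve_left hne
    exact huk.ne' (by simp [u, hgk, hfk])
  have hrange : LinearMap.range L = stoich R := by
    refine Submodule.eq_of_le_of_finrank_eq ?_ ?_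
    · rintro _ ⟨w, rfl⟩
      have hf : f ∈ stoich R := (bs 0).2
      have hg : g ∈ stoich R := (bs 1).2
      have e : L w = (w.1 * g k + w.2 * s) • f + (-(w.1 * f k) + w.2 * (s * t)) • g := by
        funext i; rw [hL]; simp [δ, u]; ring
      rw [e]
      exact add_mem (Submodule.smul_mem _ _ hf) (Submodule.smul_mem _ _ hg)
    · rw [LinearMap.finrank_range_of_inj hinj, hS]; simp
  have hpre : ∀ v : {v // v ∈ diffs R}, ∃ p, L p = v.1 := fun v => by
    have : v.1 ∈ LinearMap.range L := by rw [hrange]; exact diffs_subset v.2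
    exact this
  choose pre hpre using hpre
  set Ps : Finset (ℝ × ℝ) := (univ.image pre) ∪ univ.image fun i => (u i, -δ i)
  obtain ⟨F, hF0, hF⟩ := exists_fan (Ps.image fun p => p.1 / p.2)
  have hdir : ∀ p ∈ Ps, p ≠ 0 → ∃ i, ∃ r : ℝ, 0 < r ∧ p = r • F.dir i := fun p hp hne =>
    hF p hne (Or.inr (Finset.mem_image_of_mem _ hp))
  have hσ : 0 < c k / u k := div_pos (hc k) huk
  refine ⟨⟨c, hc, L, hinj, F, hF0, fun i => ?_, c k / u k, hσ, fun w hw => ?_, fun i => ?_⟩,
    rfl, hrange, fun v hv hne => ?_⟩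
  · by_cases h0 : (u i, -δ i) = (0 : ℝ × ℝ)
    · left
      intro w
      simp only [Prod.mk_eq_zero, neg_eq_zero] at h0
      rw [hL, h0.1, h0.2]; simp
    · right
      obtain ⟨j, r, hr, he⟩ := hdir _ (Finset.mem_union_right _
        (Finset.mem_image_of_mem _ (mem_univ i))) h0
      refine ⟨j, r, hr, fun w => ?_⟩
      rw [← cross_smul_left, ← he, hL]
      simp [cross]; ring
  · have := hw k
    rw [hL, hδk, mul_zero, zero_add] at this
    rw [lt_div_iff₀ huk]
    linarith
  · have hle : u i * c k ≤ u k * c i := (div_le_div_iff₀ (hc i) (hc k)).1 (hk i (mem_univ _))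
    have e : c i + L (0, -(c k / u k)) i = (u k * c i - u i * c k) / u k := by
      rw [hL]; field_simp; ring
    rw [e]
    refine ⟨div_nonneg (sub_nonneg.2 hle) huk.le, fun hi => ?_⟩
    rw [hL] at hi
    simp only [one_mul, zero_mul, add_zero] at hi
    refine div_pos (sub_pos.2 (lt_of_le_of_ne hle fun heq => hi ?_)) huk
    have heq' : s * (c k * (f i + t * g i)) = s * (c i * (f k + t * g k)) := by
      simp only [u] at heq; linarith
    obtain ⟨h1, h2⟩ := hgen i k (mul_left_cancel₀ hs0 heq')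
    have : c k * δ i = 0 := by
      simp only [δ, Pi.sub_apply, Pi.smul_apply, smul_eq_mul]
      linear_combination g k * h1 - f k * h2
    exact (mul_eq_zero.1 this).resolve_left (hc k).ne'
  · have hp := hpre ⟨v, hv⟩
    obtain ⟨i, r, hr, he⟩ := hdir _ (Finset.mem_union_left _
      (Finset.mem_image_of_mem pre (mem_univ ⟨v, hv⟩))) (fun h0 => hne (by
        rw [h0, map_zero] at hp; exact hp.symm))
    refine ⟨i, r, hr, ?_⟩
    show v = r • L (F.dir i)
    rw [← map_smul, ← he, hp]

/-- A left inverse of an injective planar map. -/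
lemma exists_proj (G : Frame d) : ∃ π : (Fin d → ℝ) →ₗ[ℝ] ℝ × ℝ, ∀ w, π (G.L w) = w := by
  obtain ⟨π, hπ⟩ := LinearMap.exists_leftInverse_of_injective G.L (LinearMap.ker_eq_bot.2 G.inj)
  exact ⟨π, fun w => LinearMap.congr_fun hπ w⟩

/-- The functional `n k` as a linear map. -/
def Frame.nl (G : Frame d) (k : ℕ) : ℝ × ℝ →ₗ[ℝ] ℝ where
  toFun := G.n k
  map_add' := G.n_add k
  map_smul' r w := G.n_smul k r w

/-- With wide enough bands, every level decreases outside the bands of its two neighbours. -/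
theorem exists_width (R : Finset (Reaction d)) (hR : WeaklyReversible R) {ε : ℝ} (hε : 0 < ε)
    (G : Frame d) (hrange : LinearMap.range G.L = stoich R)
    (hdir : ∀ v ∈ diffs R, v ≠ 0 → ∃ i, ∃ r : ℝ, 0 < r ∧ v = r • G.L (G.F.dir i))
    {π : (Fin d → ℝ) →ₗ[ℝ] ℝ × ℝ} (hπ : ∀ w, π (G.L w) = w) :
    ∃ H, 0 < H ∧ ∀ k, ∀ w ∈ G.P, H < G.xi w (G.F.dir (G.F.prv k)) →
      G.xi w (G.F.dir (k + 1)) < -H → ∀ κ : Reaction d → ℝ, (∀ r ∈ R, κ r ∈ Set.Icc ε ε⁻¹) →
        G.n k (π (field R κ (G.x w))) < 0 := by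
  classical
  obtain ⟨Hc, hHc, hcut⟩ := cut R hR hε
  set B : (Fin d → ℝ) → ℕ → ℝ := fun v k =>
    |Hc * (cross (G.F.dir (G.F.prv k)) (G.F.dir k) + cross (G.F.dir k) (G.F.dir (k + 1))) /
      G.n k (π v)|
  set H := 1 + ∑ v ∈ diffs R, ∑ k ∈ range G.F.N, B v k
  have hH : 0 < H := add_pos_of_pos_of_nonneg one_pos
    (Finset.sum_nonneg fun v _ => Finset.sum_nonneg fun k _ => abs_nonneg _)
  refine ⟨H, hH, fun k w hw hi hj κ hκ => ?_⟩
  set gk := (G.nl k).comp π
  have hg : ∀ v, gk v = G.n k (π v) := fun v => rfl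
  refine hcut (G.x w) hw gk (fun v hv hpos => ?_) ?_ κ hκ
  · have hne : v ≠ 0 := fun h => by rw [h, map_zero] at hpos; exact lt_irrefl _ hpos
    obtain ⟨i, r, hr, rfl⟩ := hdir v hv hne
    rw [← map_smul] at hpos ⊢
    set p := r • G.F.dir i
    rw [hg, hπ] at hpos
    obtain ⟨a, b, ha, hb, hab, he⟩ := G.F.cone ⟨i, r, hr, rfl⟩ (k := k) (v := p)
      (by simp only [Frame.n] at hpos; linarith)
    show Hc ≤ G.xi w p
    have hxi : (a + b) * H ≤ G.xi w p := by
      rw [he, G.xi_sub, G.xi_smul, G.xi_smul]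
      nlinarith
    set α := cross (G.F.dir k) (G.F.dir (k + 1))
    set β := cross (G.F.dir (G.F.prv k)) (G.F.dir k)
    have hα : 0 < α := G.F.cross_succ k
    have hβ : 0 < β := G.F.cross_prv k
    have hn : G.n k p = a * β + b * α := by
      rw [he, G.n_sub, G.n_smul, G.n_smul, G.n_dir_prv]
      simp only [Frame.n, α]; ring
    have hBH : Hc * (β + α) / G.n k p ≤ H := by
      have hm : k % G.F.N ∈ range G.F.N := Finset.mem_range.2 (Nat.mod_lt _ G.F.N_pos)
      have hd : ∀ m, G.F.dir (k % G.F.N + m) = G.F.dir (k + m) := fun m => by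
        rw [← G.F.dir_mod (k % G.F.N + m), Nat.mod_add_mod, G.F.dir_mod]
      have e : B (r • G.L (G.F.dir i)) (k % G.F.N) = |Hc * (β + α) / G.n k p| := by
        simp only [B, Fan.prv, hd, G.F.dir_mod, G.n_mod, ← map_smul, hπ]
        rfl
      have h1 : B (r • G.L (G.F.dir i)) (k % G.F.N) ≤
          ∑ v ∈ diffs R, ∑ k ∈ range G.F.N, B v k :=
        (Finset.single_le_sum (f := fun m => B (r • G.L (G.F.dir i)) m)
          (fun m _ => abs_nonneg _) hm).trans
          (Finset.single_le_sum (f := fun v => ∑ m ∈ range G.F.N, B v m)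
            (fun v _ => Finset.sum_nonneg fun m _ => abs_nonneg _) hv)
      rw [e] at h1
      linarith [le_abs_self (Hc * (β + α) / G.n k p)]
    rw [div_le_iff₀ hpos] at hBH
    have h2 : G.n k p ≤ (a + b) * (β + α) := by rw [hn]; nlinarith
    have h3 : Hc * (β + α) ≤ H * ((a + b) * (β + α)) :=
      hBH.trans (mul_le_mul_of_nonneg_left h2 hH.le)
    have h4 : Hc ≤ H * (a + b) := by
      refine le_of_mul_le_mul_right ?_ (add_pos hβ hα)
      linarith
    linarith
  · by_contra hall
    push Not at hall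
    have h0 : stoich R ≤ LinearMap.ker gk := by
      refine Submodule.span_le.2 ?_
      rintro _ ⟨r, hr, rfl⟩
      exact hall r hr
    have : G.L (G.e k) ∈ stoich R := by rw [← hrange]; exact ⟨_, rfl⟩
    have h1 : gk (G.L (G.e k)) = 0 := h0 this
    rw [hg, hπ, G.n_e] at h1
    exact one_ne_zero h1

end Vale.Agent.P072
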