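import Vale.Agent.P072.Defs

/-! The cut lemma: a functional compatible with the ordering of the monomials decreases. -/

noncomputable section

namespace Vale.Agent.P072

open Finset

variable {d : ℕ}

/-- `∑ vᵢ log xᵢ`. -/
def pair (x : Fin d → ℝ) (v : Fin d → ℝ) : ℝ := ∑ i, v i * Real.log (x i)

lemma exists_drop {α : Type*} {E : α → α → Prop} (y : α) {v : α}
    (h : Relation.ReflTransGen E v y) :
    ∃ m : ℕ, ∀ a : α → ℝ, a y < a v → ∃ p q, E p q ∧ Relation.ReflTransGen E v p ∧
      a y < a p ∧ a v - a y ≤ m * (a p - a q) := by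
  induction h using Relation.ReflTransGen.head_induction_on with
  | refl => exact ⟨0, fun a ha => absurd ha (lt_irrefl _)⟩
  | head hvw _ ih =>
    rename_i v w _
    obtain ⟨m, hm⟩ := ih
    refine ⟨m + 1, fun a ha => ?_⟩
    by_cases hb : a v - a y ≤ ((m + 1 : ℕ) : ℝ) * (a v - a w)
    · exact ⟨v, w, hvw, Relation.ReflTransGen.refl, ha, hb⟩
    push Not at hb
    push_cast at hb
    have hm0 : (0 : ℝ) ≤ m := Nat.cast_nonneg m
    have hw : a y < a w := by
      by_contra hle
      push Not at hle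
      nlinarith
    obtain ⟨p, q, hpq, hre, hp, hd⟩ := hm a hw
    refine ⟨p, q, hpq, Relation.ReflTransGen.head hvw hre, hp, ?_⟩
    push_cast
    nlinarith

/-- The real vector of a complex. -/
def cplx (y : Fin d → ℕ) : Fin d → ℝ := fun i => (y i : ℝ)

lemma vec_eq (r : Reaction d) : vec r = cplx r.2 - cplx r.1 := rfl

lemma reach_sub_mem {R : Finset (Reaction d)} {v w : Fin d → ℕ}
    (h : Relation.ReflTransGen (fun a b => (a, b) ∈ R) v w) :
    cplx w - cplx v ∈ stoich R := by
  induction h with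
  | refl => rw [sub_self]; exact zero_mem _
  | tail _ hbc ih =>
    rename_i b c _
    have : cplx c - cplx v = vec (b, c) + (cplx b - cplx v) := by rw [vec_eq]; abel
    rw [this]
    exact add_mem (Submodule.subset_span ⟨_, hbc, rfl⟩) ih

/-- The finitely many differences used by the cut. -/
def diffs (R : Finset (Reaction d)) : Finset (Fin d → ℝ) := by
  classical
  exact ((R ×ˢ R).filter fun p => Relation.ReflTransGen (fun a b => (a, b) ∈ R) p.1.2 p.2.1).image
    fun p => cplx p.2.1 - cplx p.1.1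

lemma diffs_subset {R : Finset (Reaction d)} {v : Fin d → ℝ} (hv : v ∈ diffs R) :
    v ∈ stoich R := by
  classical
  simp only [diffs, Finset.mem_image, Finset.mem_filter, Finset.mem_product] at hv
  obtain ⟨⟨r, q⟩, ⟨⟨hr, -⟩, hre⟩, rfl⟩ := hv
  have : cplx q.1 - cplx r.1 = vec r + (cplx q.1 - cplx r.2) := by rw [vec_eq]; abel
  rw [this]
  exact add_mem (Submodule.subset_span ⟨_, hr, rfl⟩) (reach_sub_mem hre)

lemma monomial_eq_exp {x : Fin d → ℝ} (hx : ∀ i, 0 < x i) (y : Fin d → ℕ) :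
    ∏ i, x i ^ y i = Real.exp (pair x (cplx y)) := by
  rw [pair, Real.exp_sum]
  refine Finset.prod_congr rfl fun i _ => ?_
  rw [cplx, Real.exp_nat_mul, Real.exp_log (hx i)]

lemma pair_sub (x v w : Fin d → ℝ) : pair x (v - w) = pair x v - pair x w := by
  simp [pair, sub_mul, Finset.sum_sub_distrib]

/-- If every difference with positive `g`-value has a large logarithmic pairing, the field
strictly decreases `g`. -/
theorem cut (R : Finset (Reaction d)) (hR : WeaklyReversible R) {ε : ℝ} (hε : 0 < ε) :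
    ∃ H : ℝ, 0 < H ∧ ∀ x : Fin d → ℝ, (∀ i, 0 < x i) → ∀ g : (Fin d → ℝ) →ₗ[ℝ] ℝ,
      (∀ v ∈ diffs R, 0 < g v → H ≤ pair x v) → (∃ r ∈ R, g (vec r) ≠ 0) →
      ∀ k : Reaction d → ℝ, (∀ r ∈ R, k r ∈ Set.Icc ε ε⁻¹) → g (field R k x) < 0 := by
  classical
  have hN : ∀ r ∈ R, ∃ m : ℕ, ∀ a : (Fin d → ℕ) → ℝ, a r.1 < a r.2 →
      ∃ p q, (p, q) ∈ R ∧ Relation.ReflTransGen (fun a b => (a, b) ∈ R) r.2 p ∧
        a r.1 < a p ∧ a r.2 - a r.1 ≤ m * (a p - a q) := fun r hr => exists_drop _ (hR r hr)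
  choose N hN using hN
  set M : ℝ := 1 + ∑ r ∈ R.attach, (N r.1 r.2 : ℝ)
  have hM : 1 ≤ M := le_add_of_nonneg_right (Finset.sum_nonneg fun _ _ => Nat.cast_nonneg _)
  set n : ℝ := R.card + 1
  have hn : 0 < n := by positivity
  have hH : 0 < Real.log (n * M / ε ^ 2 + 2) :=
    Real.log_pos (by
      have : 0 ≤ n * M / ε ^ 2 := by positivity
      linarith)
  refine ⟨_, hH, fun x hx g hg hne k hk => ?_⟩
  set H := Real.log (n * M / ε ^ 2 + 2)
  have he : n * M * Real.exp (-H) < ε ^ 2 := by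
    rw [Real.exp_neg, Real.exp_log (by positivity), ← div_eq_mul_inv, div_lt_iff₀ (by positivity)]
    have : ε ^ 2 * (n * M / ε ^ 2 + 2) = n * M + 2 * ε ^ 2 := by field_simp
    rw [this]
    nlinarith [sq_pos_of_pos hε]
  set a : (Fin d → ℕ) → ℝ := fun y => g (cplx y)
  set mon : (Fin d → ℕ) → ℝ := fun y => ∏ i, x i ^ y i
  have hmon : ∀ y, 0 < mon y := fun y => Finset.prod_pos fun i _ => pow_pos (hx i) _
  have hgv : ∀ r, g (vec r) = a r.2 - a r.1 := fun r => by simp [a, vec_eq]
  have hf : g (field R k x) = ∑ r ∈ R, k r * mon r.1 * (a r.2 - a r.1) := by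
    simp [field, map_sum, map_smul, hgv, mon]
  set D : ℝ := ∑ r ∈ R, mon r.1 * max 0 (a r.1 - a r.2)
  have hup : ∀ r ∈ R, a r.1 < a r.2 → mon r.1 * (a r.2 - a r.1) ≤ M * Real.exp (-H) * D := by
    intro r hr hlt
    obtain ⟨p, q, hpq, hre, hp, hd⟩ := hN r hr a hlt
    have hv : cplx p - cplx r.1 ∈ diffs R := by
      simp only [diffs, Finset.mem_image, Finset.mem_filter, Finset.mem_product]
      exact ⟨(r, (p, q)), ⟨⟨hr, hpq⟩, hre⟩, rfl⟩
    have hpos : 0 < g (cplx p - cplx r.1) := by simpa [a] using hp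
    have hH' := hg _ hv hpos
    rw [pair_sub] at hH'
    have hm : mon r.1 ≤ Real.exp (-H) * mon p := by
      simp only [mon, monomial_eq_exp hx, ← Real.exp_add]
      exact Real.exp_le_exp.2 (by linarith)
    have hpq0 : 0 ≤ a p - a q := by
      by_contra hneg
      push Not at hneg
      have : ((N r hr : ℕ) : ℝ) * (a p - a q) ≤ 0 :=
        mul_nonpos_of_nonneg_of_nonpos (Nat.cast_nonneg _) hneg.le
      linarith
    have hterm : mon p * max 0 (a p - a q) ≤ D :=
      Finset.single_le_sum (f := fun r : Reaction d => mon r.1 * max 0 (a r.1 - a r.2))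
        (fun r _ => mul_nonneg (hmon _).le (le_max_left _ _)) hpq
    rw [max_eq_right hpq0] at hterm
    have hNM : (N r hr : ℝ) ≤ M := le_add_of_nonneg_of_le zero_le_one
      (Finset.single_le_sum (f := fun r : R => (N r.1 r.2 : ℝ)) (fun _ _ => Nat.cast_nonneg _)
        (Finset.mem_attach R ⟨r, hr⟩))
    calc mon r.1 * (a r.2 - a r.1) ≤ Real.exp (-H) * mon p * (M * (a p - a q)) :=
          mul_le_mul hm (hd.trans (mul_le_mul_of_nonneg_right hNM hpq0)) (by linarith)
            (mul_nonneg (Real.exp_pos _).le (hmon p).le)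
      _ = M * Real.exp (-H) * (mon p * (a p - a q)) := by ring
      _ ≤ _ := mul_le_mul_of_nonneg_left hterm (by positivity)
  have hD : 0 < D := by
    obtain ⟨r, hr, hne⟩ := hne
    have h0 : 0 ≤ D := Finset.sum_nonneg fun r _ => mul_nonneg (hmon _).le (le_max_left _ _)
    rcases lt_trichotomy (a r.1) (a r.2) with h | h | h
    · nlinarith [hup r hr h, mul_pos (hmon r.1) (sub_pos.2 h), Real.exp_pos (-H),
        mul_pos (lt_of_lt_of_le one_pos hM) (Real.exp_pos (-H))]
    · exact absurd (by rw [hgv, h, sub_self]) hne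
    · refine lt_of_lt_of_le (mul_pos (hmon r.1) (sub_pos.2 h)) ?_
      exact (mul_le_mul_of_nonneg_left (le_max_right _ _) (hmon _).le).trans
        (Finset.single_le_sum (f := fun r : Reaction d => mon r.1 * max 0 (a r.1 - a r.2))
          (fun r _ => mul_nonneg (hmon _).le (le_max_left _ _)) hr)
  rw [hf]
  have hterm : ∀ r ∈ R, k r * mon r.1 * (a r.2 - a r.1) ≤
      ε⁻¹ * (M * Real.exp (-H) * D) - ε * (mon r.1 * max 0 (a r.1 - a r.2)) := by
    intro r hr
    obtain ⟨hk1, hk2⟩ := hk r hr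
    rcases lt_or_ge (a r.1) (a r.2) with h | h
    · rw [max_eq_left (by linarith), mul_zero, mul_zero, sub_zero, mul_assoc]
      exact mul_le_mul hk2 (hup r hr h) (mul_nonneg (hmon _).le (by linarith)) (inv_pos.2 hε).le
    · rw [max_eq_right (by linarith)]
      have h1 : 0 ≤ mon r.1 * (a r.1 - a r.2) := mul_nonneg (hmon _).le (by linarith)
      have h2 : 0 ≤ ε⁻¹ * (M * Real.exp (-H) * D) := by positivity
      nlinarith [mul_le_mul_of_nonneg_right hk1 h1]
  refine lt_of_le_of_lt (Finset.sum_le_sum hterm) ?_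
  rw [Finset.sum_sub_distrib, Finset.sum_const, nsmul_eq_mul, ← Finset.mul_sum]
  show (R.card : ℝ) * (ε⁻¹ * (M * Real.exp (-H) * D)) - ε * D < 0
  have h1 : (R.card : ℝ) * (ε⁻¹ * (M * Real.exp (-H) * D)) ≤
      n * (ε⁻¹ * (M * Real.exp (-H) * D)) :=
    mul_le_mul_of_nonneg_right (by simp [n]) (by positivity)
  have h2 : n * (ε⁻¹ * (M * Real.exp (-H) * D)) < ε * D := by
    have : n * (ε⁻¹ * (M * Real.exp (-H) * D)) = (n * M * Real.exp (-H)) * D / ε := by
      field_simp
    rw [this, div_lt_iff₀ hε]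
    nlinarith
  linarith

end Vale.Agent.P072
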