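import Mathlib

/-! A symmetric cyclic list of planar directions containing prescribed slopes. -/

noncomputable section

namespace Vale.Agent.P072

/-- Planar cross product. -/
def cross (v w : ℝ × ℝ) : ℝ := v.1 * w.2 - v.2 * w.1

lemma cross_add_left (u v w : ℝ × ℝ) : cross (u + v) w = cross u w + cross v w := by
  simp [cross]; ring
lemma cross_add_right (u v w : ℝ × ℝ) : cross u (v + w) = cross u v + cross u w := by
  simp [cross]; ring
lemma cross_smul_left (r : ℝ) (v w : ℝ × ℝ) : cross (r • v) w = r * cross v w := by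
  simp [cross]; ring
lemma cross_smul_right (r : ℝ) (v w : ℝ × ℝ) : cross v (r • w) = r * cross v w := by
  simp [cross]; ring
lemma cross_neg_left (v w : ℝ × ℝ) : cross (-v) w = -cross v w := by
  simp [cross]; ring
lemma cross_neg_right (v w : ℝ × ℝ) : cross v (-w) = -cross v w := by
  simp [cross]; ring
lemma cross_self (v : ℝ × ℝ) : cross v v = 0 := by
  simp [cross]; ring
lemma cross_comm (v w : ℝ × ℝ) : cross v w = -cross w v := by
  simp [cross]; ring

/-- Cramer's rule in the plane. -/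
lemma cross_decomp (p q v : ℝ × ℝ) :
    cross p q • v = cross v q • p + cross p v • q := by
  ext <;> simp [cross] <;> ring

/-- A symmetric cyclic list of directions, `M` of them in each half turn. -/
structure Fan where
  M : ℕ
  three_le : 3 ≤ M
  dir : ℕ → ℝ × ℝ
  antipode : ∀ k, dir (k + M) = -dir k
  pos : ∀ k j, 0 < j → j < M → 0 < cross (dir k) (dir (k + j))

namespace Fan

variable (F : Fan)

/-- Period. -/
def N : ℕ := 2 * F.M

lemma periodic (k : ℕ) : F.dir (k + F.N) = F.dir k := by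
  rw [N, two_mul, ← add_assoc, F.antipode, F.antipode, neg_neg]

lemma periodic_mul (k n : ℕ) : F.dir (k + n * F.N) = F.dir k := by
  induction n with
  | zero => simp
  | succ n ih => rw [Nat.succ_mul, ← add_assoc, F.periodic, ih]

lemma dir_mod (k : ℕ) : F.dir (k % F.N) = F.dir k := by
  conv_rhs => rw [← Nat.mod_add_div k F.N, mul_comm F.N]
  rw [F.periodic_mul]

lemma N_pos : 0 < F.N := by have := F.three_le; unfold N; omega

/-- The predecessor index. -/
def prv (k : ℕ) : ℕ := k + (F.N - 1)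

lemma dir_prv_succ (k : ℕ) : F.dir (F.prv k + 1) = F.dir k := by
  have := F.N_pos
  rw [prv, show k + (F.N - 1) + 1 = k + F.N by omega, F.periodic]

lemma dir_prv_add (k j : ℕ) (hj : 1 ≤ j) : F.dir (F.prv k + j) = F.dir (k + (j - 1)) := by
  have := F.N_pos
  rw [prv, show k + (F.N - 1) + j = k + (j - 1) + F.N by omega, F.periodic]

lemma cross_succ (k : ℕ) : 0 < cross (F.dir k) (F.dir (k + 1)) :=
  F.pos k 1 one_pos (by have := F.three_le; omega)

lemma cross_prv (k : ℕ) : 0 < cross (F.dir (F.prv k)) (F.dir k) := by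
  have h := F.cross_succ (F.prv k)
  rwa [F.dir_prv_succ] at h

lemma cross_prv_succ (k : ℕ) : 0 < cross (F.dir (F.prv k)) (F.dir (k + 1)) := by
  have h := F.pos (F.prv k) 2 two_pos (by have := F.three_le; omega)
  rwa [F.dir_prv_add _ _ (by norm_num)] at h

lemma dir_ne_zero (k : ℕ) : F.dir k ≠ 0 := fun h => by
  have := F.cross_succ k
  simp [cross, h] at this

lemma cross_offset_nonpos (k j : ℕ) (h1 : F.M ≤ j) (h2 : j ≤ F.N) :
    cross (F.dir k) (F.dir (k + j)) ≤ 0 := by
  obtain ⟨i, rfl⟩ := Nat.exists_eq_add_of_le h1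
  rw [show k + (F.M + i) = k + i + F.M by ring, F.antipode, cross_neg_right]
  rcases Nat.eq_zero_or_pos i with rfl | hi
  · simp [cross_self]
  rcases (show i ≤ F.M by unfold N at h2; omega).eq_or_lt with rfl | hlt
  · rw [F.antipode, cross_neg_right, cross_self]; simp
  · linarith [F.pos k i hi hlt]

lemma cross_neg_offset (k i : ℕ) (h : cross (F.dir k) (F.dir i) < 0) :
    ∃ j, F.M < j ∧ j < F.N ∧ F.dir i = F.dir (k + j) := by
  have hN := F.N_pos
  refine ⟨(i + k * (F.N - 1)) % F.N, ?_⟩
  set j := (i + k * (F.N - 1)) % F.N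
  have hj : j < F.N := Nat.mod_lt _ hN
  have e : F.dir i = F.dir (k + j) := by
    rw [← F.dir_mod (k + j)]
    simp only [j]
    rw [Nat.add_mod_mod, F.dir_mod]
    rw [show k + (i + k * (F.N - 1)) = i + (k + k * (F.N - 1)) by ring,
      show k + k * (F.N - 1) = k * F.N by
        obtain ⟨n, hn⟩ := Nat.exists_eq_add_of_le hN
        rw [hn]; simp; ring]
    rw [F.periodic_mul]
  refine ⟨?_, hj, e⟩
  by_contra hle
  push Not at hle
  rw [e] at h
  rcases Nat.eq_zero_or_pos j with h0 | h0
  · rw [h0, add_zero, cross_self] at h; exact lt_irrefl _ h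
  rcases hle.eq_or_lt with h1 | h1
  · rw [h1, F.antipode, cross_neg_right, cross_self] at h; simp at h
  · linarith [F.pos k j h0 h1]

lemma neighbours (k i : ℕ) (h : cross (F.dir k) (F.dir i) < 0) :
    cross (F.dir (k + 1)) (F.dir i) ≤ 0 ∧ cross (F.dir (F.prv k)) (F.dir i) ≤ 0 := by
  obtain ⟨j, h1, h2, e⟩ := F.cross_neg_offset k i h
  constructor
  · have h3 := F.cross_offset_nonpos (k + 1) (j - 1) (by omega) (by omega)
    rwa [show k + 1 + (j - 1) = k + j by omega, ← e] at h3
  · have h3 := F.cross_offset_nonpos (F.prv k) (j + 1) (by omega) (by omega)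
    rwa [F.dir_prv_add _ _ (by omega), show k + (j + 1 - 1) = k + j by omega, ← e] at h3

/-- Directions strictly on the negative side of `dir k` lie in the cone of the two neighbours. -/
lemma cone {k : ℕ} {v : ℝ × ℝ} (hv : ∃ i, ∃ r : ℝ, 0 < r ∧ v = r • F.dir i)
    (h : cross (F.dir k) v < 0) :
    ∃ p q : ℝ, 0 ≤ p ∧ 0 ≤ q ∧ 0 < p + q ∧ v = p • F.dir (F.prv k) - q • F.dir (k + 1) := by
  obtain ⟨i, r, hr, rfl⟩ := hv
  rw [cross_smul_right] at h
  obtain ⟨h1, h2⟩ := F.neighbours k i (neg_of_mul_neg_right h hr.le)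
  set c := cross (F.dir (F.prv k)) (F.dir (k + 1))
  have hc : 0 < c := F.cross_prv_succ k
  refine ⟨r * cross (F.dir i) (F.dir (k + 1)) / c, -(r * cross (F.dir (F.prv k)) (F.dir i)) / c,
    ?_, ?_, ?_, ?_⟩
  · rw [cross_comm]; exact div_nonneg (mul_nonneg hr.le (by linarith)) hc.le
  · exact div_nonneg (by nlinarith) hc.le
  · by_contra hle
    push Not at hle
    have hp : 0 ≤ r * cross (F.dir i) (F.dir (k + 1)) / c := by
      rw [cross_comm]; exact div_nonneg (mul_nonneg hr.le (by linarith)) hc.le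
    have hq : 0 ≤ -(r * cross (F.dir (F.prv k)) (F.dir i)) / c := div_nonneg (by nlinarith) hc.le
    have a0 : r * cross (F.dir i) (F.dir (k + 1)) / c = 0 := by linarith
    have b0 : -(r * cross (F.dir (F.prv k)) (F.dir i)) / c = 0 := by linarith
    rw [div_eq_zero_iff, or_iff_left hc.ne', mul_eq_zero, or_iff_right hr.ne'] at a0
    rw [div_eq_zero_iff, or_iff_left hc.ne', neg_eq_zero, mul_eq_zero, or_iff_right hr.ne'] at b0
    have := cross_decomp (F.dir (F.prv k)) (F.dir (k + 1)) (F.dir i)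
    rw [a0, b0, zero_smul, zero_smul, add_zero, smul_eq_zero] at this
    exact this.elim hc.ne' (F.dir_ne_zero i)
  · have hd : c • (r • F.dir i) = r • (cross (F.dir i) (F.dir (k + 1)) • F.dir (F.prv k) +
        cross (F.dir (F.prv k)) (F.dir i) • F.dir (k + 1)) := by
      rw [← cross_decomp, smul_comm]
    apply smul_right_injective (ℝ × ℝ) hc.ne'
    simp only [hd, smul_sub, smul_smul, smul_add, neg_div, neg_smul, mul_neg, sub_neg_eq_add]
    rw [show c * (r * cross (F.dir i) (F.dir (k + 1)) / c) = r * cross (F.dir i) (F.dir (k + 1)) by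
        field_simp,
      show c * (r * cross (F.dir (F.prv k)) (F.dir i) / c) = r * cross (F.dir (F.prv k)) (F.dir i) by
        field_simp]

end Fan

/-- Fan through prescribed slopes, starting with the horizontal direction. -/
lemma exists_fan (S : Finset ℝ) : ∃ F : Fan, F.dir 0 = (1, 0) ∧
    ∀ v : ℝ × ℝ, v ≠ 0 → (v.2 = 0 ∨ v.1 / v.2 ∈ S) → ∃ i, ∃ r : ℝ, 0 < r ∧ v = r • F.dir i := by
  classical
  set T := S ∪ {0, 1}
  have hT : 2 ≤ T.card :=
    le_trans (by simp) (Finset.card_le_card (Finset.subset_union_right (s₁ := S)))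
  set m := T.card
  set e := T.orderEmbOfFin (rfl : T.card = m)
  set h : ℕ → ℝ × ℝ := fun j =>
    if hj : 0 < j ∧ j ≤ m then (e ⟨m - j, by omega⟩, 1) else (1, 0)
  set M := m + 1
  have hh : ∀ a b, a < b → b < M → 0 < cross (h a) (h b) := by
    intro a b hab hb
    have hb' : 0 < b ∧ b ≤ m := ⟨by omega, by omega⟩
    rcases Nat.eq_zero_or_pos a with rfl | ha
    · simp [h, hb', cross]
    · have ha' : 0 < a ∧ a ≤ m := ⟨ha, by omega⟩
      have : e ⟨m - b, by omega⟩ < e ⟨m - a, by omega⟩ :=
        e.strictMono (by simp only [Fin.mk_lt_mk]; omega)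
      simpa [h, ha', hb', cross] using this
  set dir : ℕ → ℝ × ℝ := fun k => ((-1 : ℝ) ^ (k / M)) • h (k % M)
  have hM : 0 < M := Nat.succ_pos _
  have hanti : ∀ k, dir (k + M) = -dir k := fun k => by
    simp only [dir, Nat.add_div_right _ hM, Nat.add_mod_right, pow_succ, mul_neg, mul_one, neg_smul]
  have hpos : ∀ k j, 0 < j → j < M → 0 < cross (dir k) (dir (k + j)) := by
    intro k j hj hjM
    have hk := Nat.mod_lt k hM
    have hs : ((-1 : ℝ) ^ (k / M)) * (-1) ^ (k / M) = 1 := by rw [← mul_pow]; norm_num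
    have hsplit : k + j = M * (k / M) + (k % M + j) := by
      have := Nat.div_add_mod k M; omega
    by_cases hlt : k % M + j < M
    · have e1 : (k + j) / M = k / M := by
        rw [hsplit, Nat.mul_add_div hM, Nat.div_eq_of_lt hlt, add_zero]
      have e2 : (k + j) % M = k % M + j := by
        rw [hsplit, Nat.mul_add_mod, Nat.mod_eq_of_lt hlt]
      simp only [dir, e1, e2, cross_smul_left, cross_smul_right, ← mul_assoc, hs, one_mul]
      exact hh _ _ (by omega) hlt
    · push Not at hlt
      have e0 : (k % M + j) = M + (k % M + j - M) := by omega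
      have hlt2 : k % M + j - M < M := by omega
      have e1 : (k + j) / M = k / M + 1 := by
        rw [hsplit, Nat.mul_add_div hM, e0, Nat.add_div_left _ hM, Nat.div_eq_of_lt hlt2]
      have e2 : (k + j) % M = k % M + j - M := by
        rw [hsplit, Nat.mul_add_mod, e0, Nat.add_mod_left, Nat.mod_eq_of_lt hlt2]
        omega
      simp only [dir, e1, e2, cross_smul_left, cross_smul_right, ← mul_assoc, pow_succ, mul_neg,
        mul_one, hs, neg_mul, one_mul]
      rw [← cross_comm]
      exact hh _ _ (by omega) hk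
  refine ⟨⟨M, by omega, dir, hanti, hpos⟩, by simp [dir, h], fun v hv hsl => ?_⟩
  have hmain : ∃ j, j < M ∧ ∃ r : ℝ, r ≠ 0 ∧ v = r • h j := by
    by_cases h2 : v.2 = 0
    · refine ⟨0, hM, v.1, fun h0 => hv (Prod.ext h0 h2), ?_⟩
      ext <;> simp [h, h2]
    · have hs := hsl.resolve_left h2
      obtain ⟨i, hi⟩ : v.1 / v.2 ∈ Set.range e := by
        rw [Finset.range_orderEmbOfFin]
        exact Finset.mem_coe.2 (Finset.mem_union_left _ hs)
      refine ⟨m - i, by omega, v.2, h2, ?_⟩
      have hij : 0 < m - (i : ℕ) ∧ m - (i : ℕ) ≤ m := ⟨by omega, by omega⟩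
      have : (⟨m - (m - (i : ℕ)), by omega⟩ : Fin m) = i := Fin.ext (by simp; omega)
      simp only [h, dif_pos hij, this, hi]
      ext
      · simp; field_simp
      · simp
  obtain ⟨j, hj, r, hr, rfl⟩ := hmain
  rcases lt_or_gt_of_ne hr with hr | hr
  · refine ⟨j + M, -r, neg_pos.2 hr, ?_⟩
    simp only [hanti]
    simp [dir, Nat.div_eq_of_lt hj, Nat.mod_eq_of_lt hj]
  · exact ⟨j, r, hr, by simp [dir, Nat.div_eq_of_lt hj, Nat.mod_eq_of_lt hj]⟩

end Vale.Agent.P072
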