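import Mathlib

/-! Mass-action systems with time-dependent rates. -/

noncomputable section

namespace Vale.Agent.P072

open MeasureTheory

variable {d : ℕ}

/-- A reaction: its source and its product complex. -/
abbrev Reaction (d : ℕ) := (Fin d → ℕ) × (Fin d → ℕ)

/-- Reaction vector. -/
def vec (r : Reaction d) : Fin d → ℝ := fun i => (r.2 i : ℝ) - r.1 i

/-- Weak reversibility. -/
def WeaklyReversible (R : Finset (Reaction d)) : Prop :=
  ∀ r ∈ R, Relation.ReflTransGen (fun a b => (a, b) ∈ R) r.2 r.1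

/-- The stoichiometric subspace. -/
def stoich (R : Finset (Reaction d)) : Submodule ℝ (Fin d → ℝ) :=
  Submodule.span ℝ (vec '' (R : Set (Reaction d)))

/-- The positive stoichiometric class of `c`. -/
def posClass (R : Finset (Reaction d)) (c : Fin d → ℝ) : Set (Fin d → ℝ) :=
  {x | (∀ i, 0 < x i) ∧ x - c ∈ stoich R}

/-- Mass-action vector field. -/
def field (R : Finset (Reaction d)) (k : Reaction d → ℝ) (x : Fin d → ℝ) : Fin d → ℝ :=
  ∑ r ∈ R, (k r * ∏ i, x i ^ r.1 i) • vec r

/-- Positive (Carathéodory) solution on `[0, T]`. -/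
def IsSolution (R : Finset (Reaction d)) (k : ℝ → Reaction d → ℝ) (x : ℝ → Fin d → ℝ) (T : ℝ) :
    Prop :=
  (∀ t ∈ Set.Icc 0 T, ∀ i, 0 < x t i) ∧
    IntervalIntegrable (fun s => field R (k s) (x s)) volume 0 T ∧
      ∀ t ∈ Set.Icc 0 T, x t = x 0 + ∫ s in (0 : ℝ)..t, field R (k s) (x s)

end Vale.Agent.P072
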