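import Vale.Agent.P072.Barrier

/-! Global existence and uniqueness for continuous rates. -/

noncomputable section

namespace Vale.Agent.P072

open MeasureTheory Filter Topology Finset
open scoped NNReal

variable {d : ℕ}

namespace Frame

variable (G : Frame d) (R : Finset (Reaction d)) (π : (Fin d → ℝ) →ₗ[ℝ] ℝ × ℝ)

/-- Clamping of concentrations to `[l, u]`. -/
def clamp (l u : ℝ) (x : Fin d → ℝ) : Fin d → ℝ := fun i => max l (min (x i) u)

lemma clamp_lipschitz (l u : ℝ) : LipschitzWith 1 (clamp (d := d) l u) :=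
  LipschitzWith.of_dist_le_mul fun x y => by
    rw [NNReal.coe_one, one_mul, dist_pi_le_iff dist_nonneg]
    intro i
    refine le_trans ?_ (dist_le_pi_dist x y i)
    simp only [clamp, Real.dist_eq]
    refine (abs_max_sub_max_le_max _ _ _ _).trans (max_le (by simp) ?_)
    exact (abs_min_sub_min_le_max _ _ _ _).trans (max_le le_rfl (by simp))

lemma clamp_mem {l u : ℝ} (h : l ≤ u) (x : Fin d → ℝ) :
    clamp l u x ∈ Set.Icc (fun _ : Fin d => l) (fun _ => u) :=
  ⟨fun _ => le_max_left _ _, fun i => max_le h (min_le_right _ _)⟩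

/-- Clamped monomial. -/
def cmon (l u : ℝ) (r : Reaction d) (w : ℝ × ℝ) : ℝ := ∏ i, clamp l u (G.x w) i ^ r.1 i

/-- Clamped planar field. -/
def cvel (l u : ℝ) (κ : Reaction d → ℝ) (w : ℝ × ℝ) : ℝ × ℝ :=
  ∑ r ∈ R, (κ r * G.cmon l u r w) • π (vec r)

lemma exists_cmon_bound {l u : ℝ} (h : l ≤ u) (r : Reaction d) :
    ∃ K : ℝ≥0, LipschitzWith K (G.cmon l u r) ∧ ∀ w, |G.cmon l u r w| ≤ K := by
  set Bx : Set (Fin d → ℝ) := Set.Icc (fun _ => l) (fun _ => u)
  have hf : ContDiff ℝ 1 (fun x : Fin d → ℝ => ∏ i, x i ^ r.1 i) := by fun_prop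
  obtain ⟨K, hK⟩ := hf.contDiffOn.exists_lipschitzOnWith one_ne_zero (convex_Icc _ _)
    (isCompact_Icc : IsCompact Bx)
  obtain ⟨B, hB⟩ := (isCompact_Icc : IsCompact Bx).exists_bound_of_continuousOn
    hf.continuous.continuousOn
  set Lc := LinearMap.toContinuousLinearMap G.L
  have hx : LipschitzWith ‖Lc‖₊ G.x := LipschitzWith.of_dist_le_mul fun v w => by
    have : G.x v - G.x w = Lc (v - w) := by funext i; simp [x, Lc]
    rw [dist_eq_norm, dist_eq_norm, this]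
    exact Lc.le_opNorm _
  have hc : LipschitzWith (K * (1 * ‖Lc‖₊)) (G.cmon l u r) := by
    refine lipschitzOnWith_univ.1 ?_
    exact hK.comp ((clamp_lipschitz l u).comp hx).lipschitzOnWith
      fun w _ => clamp_mem h _
  refine ⟨max (K * (1 * ‖Lc‖₊)) B.toNNReal, hc.weaken (le_max_left _ _), fun w => ?_⟩
  refine le_trans ?_ (NNReal.coe_le_coe.2 (le_max_right _ _))
  exact ((Real.norm_eq_abs _).symm.le.trans (hB _ (clamp_mem h _))).trans (Real.le_coe_toNNReal B)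

lemma exists_cvel_bound {l u ε : ℝ} (h : l ≤ u) (hε : 0 < ε) :
    ∃ K : ℝ≥0, ∀ κ : Reaction d → ℝ, (∀ r ∈ R, κ r ∈ Set.Icc ε ε⁻¹) →
      LipschitzWith K (G.cvel R π l u κ) ∧ ∀ w, ‖G.cvel R π l u κ w‖ ≤ K := by
  choose K hK hKb using G.exists_cmon_bound h
  set C : ℝ := ∑ r ∈ R, ε⁻¹ * K r * ‖π (vec r)‖
  have hC : 0 ≤ C := Finset.sum_nonneg fun r _ => by positivity
  refine ⟨C.toNNReal, fun κ hκ => ⟨LipschitzWith.of_dist_le_mul fun v w => ?_, fun w => ?_⟩⟩
  · rw [Real.coe_toNNReal _ hC, dist_eq_norm, cvel, cvel, ← Finset.sum_sub_distrib, Finset.sum_mul]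
    refine (norm_sum_le _ _).trans (Finset.sum_le_sum fun r hr => ?_)
    rw [← sub_smul, norm_smul, ← mul_sub, norm_mul, Real.norm_of_nonneg (hε.le.trans (hκ r hr).1),
      show ε⁻¹ * K r * ‖π (vec r)‖ * dist v w = ε⁻¹ * (K r * dist v w) * ‖π (vec r)‖ by ring]
    refine mul_le_mul_of_nonneg_right (mul_le_mul (hκ r hr).2 ?_ (norm_nonneg _)
      (inv_pos.2 hε).le) (norm_nonneg _)
    rw [← dist_eq_norm]
    exact (hK r).dist_le_mul v w
  · rw [Real.coe_toNNReal _ hC, cvel]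
    refine (norm_sum_le _ _).trans (Finset.sum_le_sum fun r hr => ?_)
    rw [norm_smul, norm_mul, Real.norm_of_nonneg (hε.le.trans (hκ r hr).1)]
    exact mul_le_mul_of_nonneg_right (mul_le_mul (hκ r hr).2 (hKb r w) (norm_nonneg _)
      (inv_pos.2 hε).le) (norm_nonneg _)

lemma cvel_eq {l u : ℝ} {κ : Reaction d → ℝ} {w : ℝ × ℝ}
    (h : ∀ i, G.x w i ∈ Set.Icc l u) : G.cvel R π l u κ w = G.vel R π κ w := by
  rw [vel_eq]
  refine Finset.sum_congr rfl fun r _ => ?_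
  congr 2
  refine Finset.prod_congr rfl fun i _ => ?_
  rw [clamp, min_eq_left (h i).2, max_eq_right (h i).1]

variable {G R π} {lvl : ℕ → (ℝ ≃o ℝ)} {k : ℝ → Reaction d → ℝ} {ε R₀ : ℝ}

lemma Sol.mem_sub {w : ℝ → ℝ × ℝ} {a b ρ : ℝ} (h : G.Sol R π k w a b)
    (hgood : G.Good R π lvl ε R₀) (hk : ∀ t ∈ Set.Icc a b, ∀ r ∈ R, k t r ∈ Set.Icc ε ε⁻¹)
    (hρ : R₀ ≤ ρ) (h0 : G.V lvl (w a) ≤ ρ) :
    ∀ t ∈ Set.Icc a b, w t ∈ {v ∈ G.P | G.V lvl v ≤ ρ} :=
  fun t ht => ⟨h.mem t ht, h.invariant hgood hk hρ h0 t ht⟩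

/-- Existence and uniqueness on the half line. -/
theorem exists_unique_sol (hε : 0 < ε) (hgood : G.Good R π lvl ε R₀)
    (hk : ∀ t, ∀ r ∈ R, k t r ∈ Set.Icc ε ε⁻¹) (hkc : ∀ r ∈ R, Continuous fun t => k t r)
    {w₀ : ℝ × ℝ} (hw₀ : w₀ ∈ G.P) :
    ∃ w : ℝ → ℝ × ℝ, w 0 = w₀ ∧ (∀ T, 0 ≤ T → G.Sol R π k w 0 T) ∧
      ∀ T v, 0 ≤ T → G.Sol R π k v 0 T → v 0 = w₀ → Set.EqOn v w (Set.Icc 0 T) := by
  set ρ := max R₀ (G.V lvl w₀)
  have hρ : R₀ ≤ ρ := le_max_left _ _
  obtain ⟨Q, hQP, hQ, hQm⟩ := G.sublevel lvl ρ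
  -- clamp levels
  obtain ⟨B, hB⟩ := hQ.exists_bound_of_continuousOn
    (f := fun w => ∑ i, (G.x w i + (G.x w i)⁻¹))
    (continuousOn_finsetSum _ fun i _ => (continuous_pi_iff.1 G.continuous_x i).continuousOn.add
      ((continuous_pi_iff.1 G.continuous_x i).continuousOn.inv₀ fun w hw => (hQP hw i).ne'))
  set u := |B| + 1
  have hu1 : 1 ≤ u := le_add_of_nonneg_left (abs_nonneg B)
  have hu : 0 < u := lt_of_lt_of_le one_pos hu1
  have hlu : u⁻¹ ≤ u := (inv_le_one_of_one_le₀ hu1).trans hu1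
  set U := {w : ℝ × ℝ | ∀ i, G.x w i ∈ Set.Ioo u⁻¹ u}
  have hUo : IsOpen U := by
    simp only [U, Set.setOf_forall]
    exact isOpen_iInter_of_finite fun i =>
      isOpen_Ioo.preimage (continuous_pi_iff.1 G.continuous_x i)
  have hUP : U ⊆ G.P := fun w hw i => (inv_pos.2 hu).trans (hw i).1
  have hQU : ∀ w ∈ Q, w ∈ U := fun w hw i => by
    have h1 := hB w hw
    rw [Real.norm_eq_abs] at h1
    have h2 : G.x w i + (G.x w i)⁻¹ ≤ |B| :=
      le_trans (Finset.single_le_sum (f := fun j => G.x w j + (G.x w j)⁻¹)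
        (fun j _ => (add_pos (hQP hw j) (inv_pos.2 (hQP hw j))).le) (mem_univ i))
        ((le_abs_self _).trans (h1.trans (le_abs_self B)))
    have hx := hQP hw i
    refine ⟨inv_lt_of_inv_lt₀ hx ?_, ?_⟩
    · simp only [u]; linarith
    · simp only [u]; linarith [inv_pos.2 hx]
  have hUeq : ∀ w ∈ U, ∀ κ, G.cvel R π u⁻¹ u κ w = G.vel R π κ w := fun w hw κ =>
    G.cvel_eq R π fun i => Set.Ioo_subset_Icc_self (hw i)
  obtain ⟨K, hK⟩ := G.exists_cvel_bound R π hlu hε (ε := ε)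
  set f := fun t w => G.cvel R π u⁻¹ u (k t) w
  have hfc : Continuous (Function.uncurry f) := by
    refine continuous_finsetSum _ fun r hr => ?_
    obtain ⟨Kr, hKr, -⟩ := G.exists_cmon_bound hlu r
    exact (((hkc r hr).comp continuous_fst).mul (hKr.continuous.comp continuous_snd)).smul
      continuous_const
  have key : ∀ T : ℝ, 0 ≤ T → ∃ α : ℝ → ℝ × ℝ, α 0 = w₀ ∧ G.Sol R π k α 0 T ∧
      ∀ v, G.Sol R π k v 0 T → v 0 = w₀ → Set.EqOn v α (Set.Icc 0 T) := by
    intro T hT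
    set t₀ : Set.Icc (0 : ℝ) T := ⟨0, le_rfl, hT⟩
    have hP : IsPicardLindelof f t₀ w₀ (K * T.toNNReal) 0 K K :=
      ⟨fun t _ => (hK _ (hk t)).1.lipschitzOnWith, fun x _ =>
        (hfc.comp (continuous_id.prodMk continuous_const)).continuousOn,
        fun t _ x _ => (hK _ (hk t)).2 x, by
          show (K : ℝ) * max (T - 0) (0 - 0) ≤ _
          push_cast
          rw [sub_zero, sub_zero, sub_zero, max_eq_left hT, Real.coe_toNNReal _ hT]⟩
    obtain ⟨α, hα0, hαd⟩ := hP.exists_eq_forall_mem_Icc_hasDerivWithinAt₀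
    change α 0 = w₀ at hα0
    have hαc : ContinuousOn α (Set.Icc 0 T) := HasDerivWithinAt.continuousOn hαd
    have hα' : ∀ t ∈ Set.Icc (0 : ℝ) T, α t = w₀ + ∫ s in (0 : ℝ)..t, f s (α s) := by
      intro t ht
      have hsub : Set.uIcc 0 t ⊆ Set.Icc 0 T := by
        rw [Set.uIcc_of_le ht.1]; exact Set.Icc_subset_Icc le_rfl ht.2
      have h := ODE.picard_eq_of_hasDerivAt (u := Set.univ) hfc.continuousOn
        (fun t' ht' => (hαd t' (hsub ht')).mono hsub) fun _ _ => trivial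
      rw [ODE.picard_apply, hα0] at h
      exact h.symm
    have hfa : ContinuousOn (fun s => f s (α s)) (Set.Icc 0 T) :=
      hfc.comp_continuousOn (continuousOn_id.prodMk hαc)
    have hint : ∀ a b, 0 ≤ a → a ≤ b → b ≤ T →
        IntervalIntegrable (fun s => f s (α s)) volume a b := fun a b ha hab hb =>
      (hfa.mono (Set.Icc_subset_Icc ha hb)).intervalIntegrable_of_Icc hab
    have hsolU : ∀ a b, 0 ≤ a → a ≤ b → b ≤ T → (∀ t ∈ Set.Icc a b, α t ∈ U) →
        G.Sol R π k α a b := by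
      intro a b ha hab hb hU
      have he : Set.EqOn (fun s => f s (α s)) (fun s => G.vel R π (k s) (α s)) (Set.Icc a b) :=
        fun s hs => hUeq _ (hU s hs) _
      refine ⟨hab, fun t ht => hUP (hU t ht), ?_, fun t ht => ?_⟩
      · refine (hint a b ha hab hb).congr ?_
        rw [Set.uIoc_of_le hab]
        exact (he.mono Set.Ioc_subset_Icc_self)
      · rw [hα' t ⟨ha.trans ht.1, ht.2.trans hb⟩, hα' a ⟨ha, hab.trans hb⟩, add_assoc,
          intervalIntegral.integral_congr (f := fun s => G.vel R π (k s) (α s))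
            (g := fun s => f s (α s)) (a := a) (b := t) (he.symm.mono (by
              rw [Set.uIcc_of_le ht.1]; exact Set.Icc_subset_Icc le_rfl ht.2)),
          intervalIntegral.integral_add_adjacent_intervals (hint 0 a le_rfl ha (hab.trans hb))
            (hint a t ha ht.1 (ht.2.trans hb))]
    set S := {t | α t ∈ G.P ∧ G.V lvl (α t) ≤ ρ}
    have hstay : Set.Icc (0 : ℝ) T ⊆ S := by
      have hc : IsClosed (S ∩ Set.Icc 0 T) := by
        have hcl : IsClosed {w ∈ G.P | G.V lvl w ≤ ρ} := by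
          have e : {w ∈ G.P | G.V lvl w ≤ ρ} = Q ∩ G.V lvl ⁻¹' Set.Iic ρ := by
            ext w
            exact ⟨fun h => ⟨hQm w h.1 h.2, h.2⟩, fun h => ⟨hQP h.1, h.2⟩⟩
          rw [e]
          exact ((G.continuousOn_V lvl).mono hQP).preimage_isClosed_of_isClosed hQ.isClosed
            isClosed_Iic
        rw [Set.inter_comm]
        exact hαc.preimage_isClosed_of_isClosed isClosed_Icc hcl
      refine hc.Icc_subset_of_forall_mem_nhdsWithin ?_ fun x ⟨hx, hxI⟩ => ?_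
      · show α 0 ∈ G.P ∧ G.V lvl (α 0) ≤ ρ
        rw [hα0]
        exact ⟨hw₀, le_max_right _ _⟩
      have hwc : ContinuousWithinAt α (Set.Ioi x) x :=
        (hαc x (Set.Ico_subset_Icc_self hxI)).mono_of_mem_nhdsWithin
          (mem_nhdsGT_iff_exists_Ioc_subset.2
            ⟨T, hxI.2, fun y hy => ⟨hxI.1.trans hy.1.le, hy.2⟩⟩)
      have hxU : α x ∈ U := hQU _ (hQm _ hx.1 hx.2)
      obtain ⟨b, hb, hball⟩ := mem_nhdsGT_iff_exists_Ioc_subset.1
        (hwc.tendsto.eventually (hUo.mem_nhds hxU))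
      filter_upwards [Ioc_mem_nhdsGT (lt_min hb hxI.2)] with t ht
      have hs := hsolU x t hxI.1 ht.1.le (ht.2.trans (min_le_right _ _)) fun s hs => by
        rcases hs.1.eq_or_lt with e | e
        · rwa [← e]
        · exact hball ⟨e, hs.2.trans (ht.2.trans (min_le_left _ _))⟩
      exact hs.mem_sub hgood (fun s _ => hk s) hρ hx.2 t (Set.right_mem_Icc.2 ht.1.le)
    have hsol := hsolU 0 T le_rfl hT le_rfl fun t ht => hQU _ (hQm _ (hstay ht).1 (hstay ht).2)
    refine ⟨α, hα0, hsol, fun v hv hv0 => ?_⟩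
    have hvU : ∀ t ∈ Set.Icc (0 : ℝ) T, v t ∈ U := fun t ht =>
      have h := hv.mem_sub hgood (fun s _ => hk s) hρ (by rw [hv0]; exact le_max_right _ _) t ht
      hQU _ (hQm _ h.1 h.2)
    have hvc := hv.continuousOn
    have hvp : ∀ t ∈ Set.Icc (0 : ℝ) T, v t = ODE.picard f 0 w₀ v t := fun t ht => by
      rw [hv.eqn t ht, hv0, ODE.picard_apply]
      congr 1
      refine intervalIntegral.integral_congr fun s hs => ?_
      rw [Set.uIcc_of_le ht.1] at hs
      exact (hUeq _ (hvU s ⟨hs.1, hs.2.trans ht.2⟩) _).symm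
    have hder : ∀ β : ℝ → ℝ × ℝ, ContinuousOn β (Set.Icc 0 T) →
        (∀ t ∈ Set.Icc (0 : ℝ) T, β t = ODE.picard f 0 w₀ β t) →
        ∀ t ∈ Set.Ico (0 : ℝ) T, HasDerivWithinAt β (f t (β t)) (Set.Ici t) t := by
      intro β hβ he t ht
      have h := ODE.hasDerivWithinAt_picard_Icc (u := Set.univ) (t₀ := (0 : ℝ))
        (Set.left_mem_Icc.2 hT) hfc.continuousOn hβ (fun _ _ => trivial) w₀
        (Set.Ico_subset_Icc_self ht)
      exact ((h.congr he (he t (Set.Ico_subset_Icc_self ht))).mono_of_mem_nhdsWithin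
        (Filter.mem_of_superset (Icc_mem_nhdsGE ht.2) (Set.Icc_subset_Icc ht.1 le_rfl)))
    exact ODE_solution_unique (fun t => (hK _ (hk t)).1) hvc (hder v hvc hvp) hαc
      (hder α hαc fun t ht => hα' t ht) (hv0.trans hα0.symm)
  choose α hα0 hαs hαu using key
  set w : ℝ → ℝ × ℝ := fun t => α (max t 0) (le_max_right _ _) t
  have hw : ∀ T (hT : 0 ≤ T), Set.EqOn w (α T hT) (Set.Icc 0 T) := by
    intro T hT t ht
    show α (max t 0) _ t = α T hT t
    have hm : max t 0 ≤ T := max_le ht.2 hT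
    exact (hαu _ (le_max_right _ _) _
      ((hαs T hT).restrict le_rfl (le_max_right _ _) hm) (hα0 T hT)
      ⟨ht.1, le_max_left _ _⟩).symm
  have hw0 : w 0 = w₀ := by
    rw [hw 0 le_rfl ⟨le_rfl, le_rfl⟩]; exact hα0 0 le_rfl
  refine ⟨w, hw0, fun T hT => ?_, fun T v hT hv hv0 t ht => ?_⟩
  · have h := hαs T hT
    refine ⟨hT, fun t ht => by rw [hw T hT ht]; exact h.mem t ht, h.int.congr ?_, fun t ht => ?_⟩
    · intro s hs
      rw [Set.uIoc_of_le hT] at hs
      show G.vel R π (k s) (α T hT s) = G.vel R π (k s) (w s)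
      rw [hw T hT (Set.Ioc_subset_Icc_self hs)]
    · rw [hw T hT ht, hw0, h.eqn t ht, hα0]
      congr 1
      refine intervalIntegral.integral_congr fun s hs => ?_
      rw [Set.uIcc_of_le ht.1] at hs
      show G.vel R π (k s) (α T hT s) = G.vel R π (k s) (w s)
      rw [hw T hT ⟨hs.1, hs.2.trans ht.2⟩]
  · rw [hαu T hT v hv hv0 ht, hw T hT ht]

end Frame

end Vale.Agent.P072
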