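import Mathlib

/-! The logarithmic pairing along a line is an increasing bijection onto the real line. -/

noncomputable section

namespace Vale.Agent.P072

open Finset

variable {d : ℕ}

/-- Parameters keeping the moving coordinates positive. -/
def lineDom (a δ : Fin d → ℝ) : Set ℝ := {s | ∀ i, δ i ≠ 0 → 0 < a i + s * δ i}

/-- The pairing along the line. -/
def linePair (a δ : Fin d → ℝ) (s : ℝ) : ℝ := ∑ i, δ i * Real.log (a i + s * δ i)

lemma isOpen_lineDom (a δ : Fin d → ℝ) : IsOpen (lineDom a δ) := by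
  have : lineDom a δ = ⋂ i, {s | δ i ≠ 0 → 0 < a i + s * δ i} := by
    ext s; simp [lineDom]
  rw [this]
  refine isOpen_iInter_of_finite fun i => ?_
  by_cases h : δ i = 0
  · simp [h]
  · simp only [ne_eq, h, not_false_eq_true, forall_const]
    exact isOpen_lt continuous_const (by fun_prop)

lemma lineDom_convex {a δ : Fin d → ℝ} {s s' r : ℝ} (hs : s ∈ lineDom a δ) (hs' : s' ∈ lineDom a δ)
    (h1 : s ≤ r) (h2 : r ≤ s') : r ∈ lineDom a δ := by
  intro i hi
  rcases lt_or_gt_of_ne hi with h | h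
  · nlinarith [hs' i hi]
  · nlinarith [hs i hi]

lemma continuousOn_linePair (a δ : Fin d → ℝ) : ContinuousOn (linePair a δ) (lineDom a δ) := by
  refine continuousOn_finsetSum _ fun i _ => ?_
  by_cases h : δ i = 0
  · simp only [h, zero_mul]; exact continuousOn_const
  · exact continuousOn_const.mul (ContinuousOn.log (by fun_prop) fun s hs => (hs i h).ne')

lemma term_mono {δ p q : ℝ} {a : ℝ} (hpq : p ≤ q) (hp : δ ≠ 0 → 0 < a + p * δ)
    (hq : δ ≠ 0 → 0 < a + q * δ) : δ * Real.log (a + p * δ) ≤ δ * Real.log (a + q * δ) := by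
  rcases lt_trichotomy δ 0 with h | h | h
  · exact mul_le_mul_of_nonpos_left (Real.log_le_log (hq h.ne) (by nlinarith)) h.le
  · simp [h]
  · exact mul_le_mul_of_nonneg_left (Real.log_le_log (hp h.ne') (by nlinarith)) h.le

lemma linePair_strictMonoOn {a δ : Fin d → ℝ} (hδ : δ ≠ 0) :
    StrictMonoOn (linePair a δ) (lineDom a δ) := by
  intro p hp q hq hpq
  obtain ⟨i, hi⟩ := Function.ne_iff.1 hδ
  refine Finset.sum_lt_sum (fun j _ => term_mono hpq.le (hp j) (hq j)) ⟨i, mem_univ _, ?_⟩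
  rcases lt_or_gt_of_ne hi with h | h
  · exact mul_lt_mul_of_neg_left (Real.log_lt_log (hq i hi) (by nlinarith [show δ i < 0 from h])) h
  · exact mul_lt_mul_of_pos_left (Real.log_lt_log (hp i hi) (by nlinarith [show 0 < δ i from h])) h

lemma exists_linePair_ge {a δ : Fin d → ℝ} (hδ : δ ≠ 0) {s₀ : ℝ} (hs₀ : s₀ ∈ lineDom a δ) (h : ℝ) :
    ∃ s ∈ lineDom a δ, h ≤ linePair a δ s := by
  classical
  suffices ∃ s, s₀ ≤ s ∧ s ∈ lineDom a δ ∧ ∃ i, h - linePair a δ s₀ ≤
      δ i * Real.log (a i + s * δ i) - δ i * Real.log (a i + s₀ * δ i) by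
    obtain ⟨s, hle, hs, i, hi⟩ := this
    refine ⟨s, hs, ?_⟩
    have := Finset.single_le_sum
      (f := fun j => δ j * Real.log (a j + s * δ j) - δ j * Real.log (a j + s₀ * δ j))
      (fun j _ => sub_nonneg.2 (term_mono hle (hs₀ j) (hs j))) (mem_univ i)
    simp only [Finset.sum_sub_distrib] at this
    change _ ≤ linePair a δ s - linePair a δ s₀ at this
    linarith
  set F := univ.filter fun i => δ i < 0
  rcases F.eq_empty_or_nonempty with hF | hF
  · have hnn : ∀ j, 0 ≤ δ j := fun j => by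
      by_contra hj
      have : j ∈ F := by simp [F, not_le.1 hj]
      simp [hF] at this
    obtain ⟨i, hi⟩ := Function.ne_iff.1 hδ
    have hpos : 0 < δ i := lt_of_le_of_ne (hnn i) (Ne.symm hi)
    set L := Real.log (a i + s₀ * δ i)
    set s := max s₀ ((Real.exp (L + (h - linePair a δ s₀) / δ i) - a i) / δ i)
    have hss : s₀ ≤ s := le_max_left _ _
    refine ⟨s, hss, fun j hj => lt_of_lt_of_le (hs₀ j hj) (by nlinarith [hnn j]), i, ?_⟩
    have h1 : Real.exp (L + (h - linePair a δ s₀) / δ i) ≤ a i + s * δ i := by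
      have := mul_le_mul_of_nonneg_right (le_max_right s₀
        ((Real.exp (L + (h - linePair a δ s₀) / δ i) - a i) / δ i)) hpos.le
      rw [div_mul_cancel₀ _ hpos.ne'] at this
      linarith
    have h2 := mul_le_mul_of_nonneg_left
      ((Real.le_log_iff_exp_le ((Real.exp_pos _).trans_le h1)).2 h1) hpos.le
    rw [mul_add, mul_div_cancel₀ _ hpos.ne'] at h2
    linarith
  · obtain ⟨i, hi, hmin⟩ := F.exists_min_image (fun j => (a j + s₀ * δ j) / (-δ j)) hF
    have hδi : δ i < 0 := (Finset.mem_filter.1 hi).2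
    have hp : 0 < a i + s₀ * δ i := hs₀ i hδi.ne
    set L := Real.log (a i + s₀ * δ i)
    set v := min (a i + s₀ * δ i) (Real.exp (L + (h - linePair a δ s₀) / δ i))
    have hv : 0 < v := lt_min hp (Real.exp_pos _)
    set s := (v - a i) / δ i
    have hsv : a i + s * δ i = v := by simp only [s]; field_simp [hδi.ne]; ring
    have hss : s₀ ≤ s := by
      rw [le_div_iff_of_neg hδi]
      linarith [min_le_left (a i + s₀ * δ i) (Real.exp (L + (h - linePair a δ s₀) / δ i))]
    refine ⟨s, hss, fun j hj => ?_, i, ?_⟩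
    · rcases lt_or_gt_of_ne hj with hjn | hjp
      · have h1 := hmin j (by simp [F, hjn])
        have h2 : s - s₀ < (a j + s₀ * δ j) / (-δ j) := by
          refine lt_of_lt_of_le ?_ h1
          rw [lt_div_iff₀ (neg_pos.2 hδi)]
          nlinarith
        rw [lt_div_iff₀ (neg_pos.2 hjn)] at h2
        nlinarith
      · nlinarith [hs₀ j hj]
    · rw [hsv]
      have h2 : Real.log v ≤ L + (h - linePair a δ s₀) / δ i := by
        rw [Real.log_le_iff_le_exp hv]; exact min_le_right _ _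
      have h3 := mul_le_mul_of_nonpos_left h2 hδi.le
      rw [mul_add, mul_div_cancel₀ _ hδi.ne] at h3
      linarith

lemma lineDom_neg (a δ : Fin d → ℝ) (s : ℝ) : -s ∈ lineDom a (-δ) ↔ s ∈ lineDom a δ := by
  simp only [lineDom, Set.mem_setOf_eq, Pi.neg_apply, neg_mul_neg, ne_eq, neg_eq_zero]

lemma linePair_neg (a δ : Fin d → ℝ) (s : ℝ) : linePair a (-δ) (-s) = -linePair a δ s := by
  simp [linePair, Finset.sum_neg_distrib]

lemma exists_linePair_le {a δ : Fin d → ℝ} (hδ : δ ≠ 0) {s₀ : ℝ} (hs₀ : s₀ ∈ lineDom a δ) (h : ℝ) :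
    ∃ s ∈ lineDom a δ, linePair a δ s ≤ h := by
  obtain ⟨s, hs, hle⟩ := exists_linePair_ge (neg_ne_zero.2 hδ) ((lineDom_neg a δ s₀).2 hs₀) (-h)
  rw [← neg_neg s] at hs hle
  rw [linePair_neg] at hle
  exact ⟨-s, (lineDom_neg a δ _).1 hs, by linarith⟩

lemma exists_unique_linePair {a δ : Fin d → ℝ} (hδ : δ ≠ 0) (hne : (lineDom a δ).Nonempty) (h : ℝ) :
    ∃! s, s ∈ lineDom a δ ∧ linePair a δ s = h := by
  obtain ⟨s₀, hs₀⟩ := hne
  obtain ⟨p, hp, hple⟩ := exists_linePair_le hδ hs₀ h
  obtain ⟨q, hq, hqle⟩ := exists_linePair_ge hδ hs₀ h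
  have hmono := linePair_strictMonoOn (a := a) hδ
  have hpq : p ≤ q := (hmono.le_iff_le hp hq).1 (hple.trans hqle)
  have hsub : Set.Icc p q ⊆ lineDom a δ := fun r hr => lineDom_convex hp hq hr.1 hr.2
  obtain ⟨s, hs, hsv⟩ := intermediate_value_Icc hpq ((continuousOn_linePair a δ).mono hsub)
    ⟨hple, hqle⟩
  exact ⟨s, ⟨hsub hs, hsv⟩, fun r ⟨hr, hrv⟩ => hmono.injOn hr (hsub hs) (hrv.trans hsv.symm)⟩

open Classical in
/-- The parameter at which the pairing equals `h`. -/
def lineSol (a δ : Fin d → ℝ) (h : ℝ) : ℝ :=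
  if H : ∃ s, s ∈ lineDom a δ ∧ linePair a δ s = h then H.choose else 0

lemma lineSol_spec {a δ : Fin d → ℝ} (hδ : δ ≠ 0) (hne : (lineDom a δ).Nonempty) (h : ℝ) :
    lineSol a δ h ∈ lineDom a δ ∧ linePair a δ (lineSol a δ h) = h := by
  have H : ∃ s, s ∈ lineDom a δ ∧ linePair a δ s = h := (exists_unique_linePair hδ hne h).exists
  rw [lineSol, dif_pos H]
  exact H.choose_spec

lemma lineSol_eq {a δ : Fin d → ℝ} (hδ : δ ≠ 0) {s : ℝ} (hs : s ∈ lineDom a δ) :
    lineSol a δ (linePair a δ s) = s :=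
  have h := lineSol_spec hδ ⟨s, hs⟩ (linePair a δ s)
  (linePair_strictMonoOn hδ).injOn h.1 hs h.2

lemma continuousOn_lineSol {δ : Fin d → ℝ} (hδ : δ ≠ 0) :
    ContinuousOn (fun p : (Fin d → ℝ) × ℝ => lineSol p.1 δ p.2)
      {p | (lineDom p.1 δ).Nonempty} := by
  rintro ⟨a, h⟩ hne
  obtain ⟨hs, hv⟩ := lineSol_spec hδ hne h
  set s := lineSol a δ h
  rw [ContinuousWithinAt, Metric.tendsto_nhds]
  intro η hη
  obtain ⟨r, hr, hball⟩ := Metric.isOpen_iff.1 (isOpen_lineDom a δ) s hs
  set e := min η r / 2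
  have he : 0 < e := half_pos (lt_min hη hr)
  have her : e < r := lt_of_lt_of_le (half_lt_self (lt_min hη hr)) (min_le_right _ _)
  have heη : e < η := lt_of_lt_of_le (half_lt_self (lt_min hη hr)) (min_le_left _ _)
  have hp : s + e ∈ lineDom a δ := hball (by simp [Real.dist_eq, abs_of_pos he, her])
  have hq : s - e ∈ lineDom a δ := hball (by simp [Real.dist_eq, abs_of_pos he, her])
  have key : ∀ t ∈ lineDom a δ, ∀ᶠ a' in nhds a, t ∈ lineDom a' δ := by
    intro t ht
    have : ∀ i, ∀ᶠ a' in nhds a, δ i ≠ 0 → 0 < a' i + t * δ i := by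
      intro i
      by_cases hi : δ i = 0
      · simp [hi]
      · filter_upwards [((continuous_apply i).add continuous_const).continuousAt.eventually
          (lt_mem_nhds (ht i hi))] with a' ha' _ using ha'
    filter_upwards [Filter.eventually_all.2 this] with a' ha' i using ha' i
  have cont : ∀ t ∈ lineDom a δ, ContinuousAt (fun a' => linePair a' δ t) a := by
    intro t ht
    refine tendsto_finsetSum _ fun i _ => ?_
    by_cases hi : δ i = 0
    · simp [hi]
    · have hc : ContinuousAt (fun a' : Fin d → ℝ => a' i + t * δ i) a :=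
        ((continuous_apply i).add continuous_const).continuousAt
      exact (hc.log (ht i hi).ne').tendsto.const_mul _
  have hlt : linePair a δ (s - e) < h := by
    rw [← hv]; exact linePair_strictMonoOn hδ hq hs (by linarith)
  have hgt : h < linePair a δ (s + e) := by
    rw [← hv]; exact linePair_strictMonoOn hδ hs hp (by linarith)
  have e1 : ∀ᶠ p : (Fin d → ℝ) × ℝ in nhds (a, h), linePair p.1 δ (s - e) < p.2 :=
    ((cont _ hq).comp_of_eq continuous_fst.continuousAt rfl).eventually_lt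
      continuous_snd.continuousAt hlt
  have e2 : ∀ᶠ p : (Fin d → ℝ) × ℝ in nhds (a, h), p.2 < linePair p.1 δ (s + e) :=
    continuous_snd.continuousAt.eventually_lt
      ((cont _ hp).comp_of_eq continuous_fst.continuousAt rfl) hgt
  have hf : ContinuousAt (Prod.fst : (Fin d → ℝ) × ℝ → (Fin d → ℝ)) (a, h) :=
    continuous_fst.continuousAt
  have e3 := hf.eventually (key _ hq)
  have e4 := hf.eventually (key _ hp)
  filter_upwards [nhdsWithin_le_nhds e1, nhdsWithin_le_nhds e2, nhdsWithin_le_nhds e3,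
    nhdsWithin_le_nhds e4] with p h1 h2 h3 h4
  obtain ⟨hs', hv'⟩ := lineSol_spec hδ ⟨_, h3⟩ p.2
  have hm := linePair_strictMonoOn (a := p.1) hδ
  rw [← hv'] at h1 h2
  have := (hm.lt_iff_lt h3 hs').1 h1
  have := (hm.lt_iff_lt hs' h4).1 h2
  show dist (lineSol p.1 δ p.2) s < η
  rw [Real.dist_eq, abs_lt]
  constructor <;> linarith

end Vale.Agent.P072
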