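import Vale.Agent.P072.Cut
import Vale.Agent.P072.Line
import Vale.Agent.P072.Cyclic

/-! A planar positive class with a fan of directions: bands and their elementary properties. -/

noncomputable section

namespace Vale.Agent.P072

open Finset

/-- A planar class through `c`, with a fan whose zeroth direction is parallel to an edge. -/
structure Frame (d : ℕ) where
  c : Fin d → ℝ
  cpos : ∀ i, 0 < c i
  L : ℝ × ℝ →ₗ[ℝ] (Fin d → ℝ)
  inj : Function.Injective L
  F : Fan
  dir0 : F.dir 0 = (1, 0)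
  coord : ∀ i, (∀ w, L w i = 0) ∨ ∃ k, ∃ r : ℝ, 0 < r ∧ ∀ w, L w i = r * cross (F.dir k) w
  σ : ℝ
  σ_pos : 0 < σ
  edge_le : ∀ w, (∀ i, 0 < c i + L w i) → -w.2 < σ
  edge_pt : ∀ i, 0 ≤ c i + L (0, -σ) i ∧ (L (1, 0) i ≠ 0 → 0 < c i + L (0, -σ) i)

namespace Frame

variable {d : ℕ} (G : Frame d)

/-- Concentrations at a planar point. -/
def x (w : ℝ × ℝ) : Fin d → ℝ := fun i => G.c i + G.L w i

/-- The positive class, in planar coordinates. -/
def P : Set (ℝ × ℝ) := {w | ∀ i, 0 < G.x w i}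

/-- Logarithmic pairing with a planar vector. -/
def xi (w v : ℝ × ℝ) : ℝ := pair (G.x w) (G.L v)

/-- Outward functional of the `k`-th direction. -/
def n (k : ℕ) (w : ℝ × ℝ) : ℝ := -cross (G.F.dir k) w

/-- A vector with `n k` equal to one. -/
def e (k : ℕ) : ℝ × ℝ := (G.n k (G.F.dir (k + 1)))⁻¹ • G.F.dir (k + 1)

/-- Coordinate along the `k`-th direction. -/
def sc (k : ℕ) (w : ℝ × ℝ) : ℝ := -cross w (G.e k)

/-- Point with coordinates `(b, s)`. -/
def pt (k : ℕ) (b s : ℝ) : ℝ × ℝ := b • G.e k + s • G.F.dir k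

lemma n_add (k : ℕ) (v w : ℝ × ℝ) : G.n k (v + w) = G.n k v + G.n k w := by
  simp only [n, cross_add_right]; ring

lemma n_smul (k : ℕ) (r : ℝ) (w : ℝ × ℝ) : G.n k (r • w) = r * G.n k w := by
  simp only [n, cross_smul_right]; ring

lemma n_sub (k : ℕ) (v w : ℝ × ℝ) : G.n k (v - w) = G.n k v - G.n k w := by
  simp [n, cross]; ring

lemma n_succ_neg (k : ℕ) : G.n k (G.F.dir (k + 1)) < 0 := by
  simp only [n]; linarith [G.F.cross_succ k]

lemma n_e (k : ℕ) : G.n k (G.e k) = 1 := by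
  rw [e, n_smul, inv_mul_cancel₀ (G.n_succ_neg k).ne]

lemma n_dir (k : ℕ) : G.n k (G.F.dir k) = 0 := by simp [n, cross_self]

lemma n_pt (k : ℕ) (b s : ℝ) : G.n k (G.pt k b s) = b := by
  simp [pt, n_add, n_smul, n_e, n_dir]

lemma n_continuous (k : ℕ) : Continuous (G.n k) := by unfold n cross; fun_prop

lemma decomp (k : ℕ) (w : ℝ × ℝ) : w = G.pt k (G.n k w) (G.sc k w) := by
  have h := cross_decomp (G.F.dir k) (G.e k) w
  have h1 : cross (G.F.dir k) (G.e k) = -1 := by
    have := G.n_e k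
    simp only [n] at this
    linarith
  rw [h1, neg_one_smul] at h
  rw [pt, n, sc, neg_smul, neg_smul, ← neg_add, add_comm, ← h, neg_neg]

lemma x_add (v w : ℝ × ℝ) : G.x (v + w) = G.x v + G.L w := by
  funext i; simp [x, add_assoc]

lemma x_zero : G.x 0 = G.c := by funext i; simp [x]

lemma zero_mem : (0 : ℝ × ℝ) ∈ G.P := fun i => by rw [x_zero]; exact G.cpos i

lemma continuous_x : Continuous G.x :=
  continuous_pi fun i => continuous_const.add
    ((continuous_apply i).comp G.L.continuous_of_finiteDimensional)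

lemma isOpen_P : IsOpen G.P := by
  have : G.P = ⋂ i, {w | 0 < G.x w i} := by ext w; simp [P]
  rw [this]
  exact isOpen_iInter_of_finite fun i =>
    isOpen_lt continuous_const ((continuous_apply i).comp G.continuous_x)

lemma convex_P : Convex ℝ G.P := by
  intro v hv w hw a b ha hb hab i
  have : G.x (a • v + b • w) i = a * G.x v i + b * G.x w i := by
    simp [x]
    linear_combination -(G.c i) * hab
  rw [this]
  rcases ha.eq_or_lt with h | h
  · rw [← h, zero_add] at hab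
    simpa [← h, hab] using hw i
  · exact add_pos_of_pos_of_nonneg (mul_pos h (hv i)) (mul_nonneg hb (hw i).le)

lemma xi_add (w v v' : ℝ × ℝ) : G.xi w (v + v') = G.xi w v + G.xi w v' := by
  simp [xi, pair, add_mul, Finset.sum_add_distrib]

lemma xi_smul (w : ℝ × ℝ) (r : ℝ) (v : ℝ × ℝ) : G.xi w (r • v) = r * G.xi w v := by
  simp [xi, pair, Finset.mul_sum, mul_assoc]

lemma xi_sub (w v v' : ℝ × ℝ) : G.xi w (v - v') = G.xi w v - G.xi w v' := by
  simp [xi, pair, sub_mul, Finset.sum_sub_distrib]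

lemma xi_decomp (w : ℝ × ℝ) (k : ℕ) (v : ℝ × ℝ) :
    G.xi w v = G.n k v * G.xi w (G.e k) + G.sc k v * G.xi w (G.F.dir k) := by
  conv_lhs => rw [G.decomp k v]
  rw [pt, xi_add, xi_smul, xi_smul]

lemma continuousOn_xi (v : ℝ × ℝ) : ContinuousOn (fun w => G.xi w v) G.P := by
  show ContinuousOn (fun w => ∑ i, G.L v i * Real.log (G.x w i)) G.P
  refine continuousOn_finsetSum _ fun i _ => continuousOn_const.mul ?_
  exact ContinuousOn.log (f := fun w => G.x w i)
    (continuous_pi_iff.1 G.continuous_x i).continuousOn fun w hw => (hw i).ne'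

/-- The logarithmic gradient is strictly monotone on the class. -/
lemma mono {w z : ℝ × ℝ} (hw : w ∈ G.P) (hz : z ∈ G.P) (hne : w ≠ z) :
    0 < G.xi z (z - w) - G.xi w (z - w) := by
  have hL : ∀ i, G.L (z - w) i = G.x z i - G.x w i := fun i => by simp [x]
  simp only [xi, pair, hL, ← Finset.sum_sub_distrib, ← mul_sub]
  obtain ⟨i, hi⟩ : ∃ i, G.x z i ≠ G.x w i := by
    by_contra hall
    push Not at hall
    apply hne
    apply G.inj
    funext i
    have := hall i
    simp only [x, add_right_inj] at this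
    exact this.symm
  refine Finset.sum_pos' (fun j _ => ?_) ⟨i, mem_univ _, ?_⟩
  · rcases le_total (G.x w j) (G.x z j) with h | h
    · exact mul_nonneg (sub_nonneg.2 h) (sub_nonneg.2 (Real.log_le_log (hw j) h))
    · exact mul_nonneg_of_nonpos_of_nonpos (sub_nonpos.2 h)
        (sub_nonpos.2 (Real.log_le_log (hz j) h))
  · rcases lt_or_gt_of_ne hi with h | h
    · exact mul_pos_of_neg_of_neg (sub_neg.2 h) (sub_neg.2 (Real.log_lt_log (hz i) h))
    · exact mul_pos (sub_pos.2 h) (sub_pos.2 (Real.log_lt_log (hw i) h))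

/-- Point of the band with pairing `h` on the line of level `b`. -/
def yb (k : ℕ) (b h : ℝ) : ℝ × ℝ :=
  G.pt k b (lineSol (G.x (G.pt k b 0)) (G.L (G.F.dir k)) h)

lemma L_dir_ne (k : ℕ) : G.L (G.F.dir k) ≠ 0 := fun h =>
  G.F.dir_ne_zero k (G.inj (h.trans (map_zero G.L).symm))

lemma x_pt (k : ℕ) (b s : ℝ) (i : Fin d) :
    G.x (G.pt k b s) i = G.x (G.pt k b 0) i + s * G.L (G.F.dir k) i := by
  simp [x, pt, map_add, map_smul, add_assoc]

lemma n_yb (k : ℕ) (b h : ℝ) : G.n k (G.yb k b h) = b := G.n_pt k b _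

lemma mem_lineDom {k : ℕ} {w : ℝ × ℝ} (hw : w ∈ G.P) :
    G.sc k w ∈ lineDom (G.x (G.pt k (G.n k w) 0)) (G.L (G.F.dir k)) := fun i _ => by
  have := hw i
  rwa [G.decomp k w, x_pt] at this

lemma yb_mem {k : ℕ} {b : ℝ} (hb : ∃ w ∈ G.P, G.n k w = b) (h : ℝ) :
    G.yb k b h ∈ G.P ∧ G.xi (G.yb k b h) (G.F.dir k) = h := by
  obtain ⟨w, hw, rfl⟩ := hb
  obtain ⟨h1, h2⟩ := lineSol_spec (G.L_dir_ne k) ⟨_, G.mem_lineDom (k := k) hw⟩ h
  refine ⟨fun i => ?_, ?_⟩
  · rw [yb, x_pt]
    by_cases hi : G.L (G.F.dir k) i = 0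
    · have := hw i
      rw [G.decomp k w, x_pt, hi, mul_zero] at this
      rwa [hi, mul_zero]
    · exact h1 i hi
  · refine Eq.trans ?_ h2
    simp only [xi, pair, linePair, yb]
    refine Finset.sum_congr rfl fun i _ => ?_
    rw [← x_pt]

lemma eq_yb {k : ℕ} {w : ℝ × ℝ} (hw : w ∈ G.P) :
    w = G.yb k (G.n k w) (G.xi w (G.F.dir k)) := by
  have hd := G.mem_lineDom (k := k) hw
  have h : G.xi w (G.F.dir k) =
      linePair (G.x (G.pt k (G.n k w) 0)) (G.L (G.F.dir k)) (G.sc k w) := by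
    conv_lhs => rw [G.decomp k w]
    simp only [xi, pair, linePair]
    exact Finset.sum_congr rfl fun i _ => by rw [← x_pt]
  rw [yb, h, lineSol_eq (G.L_dir_ne k) hd]
  exact G.decomp k w

lemma continuousOn_yb (k : ℕ) :
    ContinuousOn (fun p : ℝ × ℝ => G.yb k p.1 p.2)
      {p | (lineDom (G.x (G.pt k p.1 0)) (G.L (G.F.dir k))).Nonempty} := by
  have hb : Continuous fun p : ℝ × ℝ => G.x (G.pt k p.1 0) :=
    G.continuous_x.comp (by unfold pt; fun_prop)
  have hs := (continuousOn_lineSol (G.L_dir_ne k)).comp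
    (hb.prodMk continuous_snd).continuousOn
    (s := {p : ℝ × ℝ | (lineDom (G.x (G.pt k p.1 0)) (G.L (G.F.dir k))).Nonempty}) fun p hp => hp
  exact (continuous_fst.continuousOn.smul continuousOn_const).add (hs.smul continuousOn_const)

/-- Same pairing, higher level: larger pairing with `e k`. -/
lemma xi_e_lt {k : ℕ} {w z : ℝ × ℝ} (hw : w ∈ G.P) (hz : z ∈ G.P)
    (hh : G.xi w (G.F.dir k) = G.xi z (G.F.dir k)) (hn : G.n k w < G.n k z) :
    G.xi w (G.e k) < G.xi z (G.e k) := by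
  have h := G.mono hw hz (fun e => hn.ne (by rw [e]))
  rw [G.xi_decomp z k, G.xi_decomp w k, hh, n_sub] at h
  by_contra hle
  push Not at hle
  nlinarith [mul_nonneg (sub_pos.2 hn).le (sub_nonneg.2 hle)]

lemma exists_of_mem_line {k : ℕ} {w : ℝ × ℝ} (hw : w ∈ G.P) {b : ℝ} (hb0 : 0 ≤ b)
    (hb : b ≤ G.n k w) : ∃ z ∈ G.P, G.n k z = b := by
  rcases (hb0.trans hb).eq_or_lt with h | h
  · exact ⟨0, G.zero_mem, by simp [n, cross]; linarith⟩
  · refine ⟨(b / G.n k w) • w, ?_, by rw [n_smul, div_mul_cancel₀ _ h.ne']⟩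
    have := G.convex_P G.zero_mem hw (sub_nonneg.2 ((div_le_one h).2 hb))
      (div_nonneg hb0 h.le) (sub_add_cancel 1 _)
    simpa using this

/-- Whether the level of direction `k` is bounded on the class. -/
def Bdd (k : ℕ) : Prop := BddAbove (G.n k '' G.P)

/-- The supremum of a level. -/
def top (k : ℕ) : ℝ := sSup (G.n k '' G.P)

lemma exists_larger (k : ℕ) {w : ℝ × ℝ} (hw : w ∈ G.P) : ∃ z ∈ G.P, G.n k w < G.n k z := by
  obtain ⟨r, hr, hball⟩ := Metric.isOpen_iff.1 G.isOpen_P w hw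
  have hpos : 0 < r / (2 * (‖G.e k‖ + 1)) := by positivity
  refine ⟨w + (r / (2 * (‖G.e k‖ + 1))) • G.e k, hball ?_, ?_⟩
  · rw [Metric.mem_ball, dist_eq_norm, add_sub_cancel_left, norm_smul, Real.norm_of_nonneg hpos.le]
    rw [div_mul_eq_mul_div, div_lt_iff₀ (by positivity)]
    nlinarith [norm_nonneg (G.e k)]
  · rw [n_add, n_smul, n_e, mul_one]; linarith

lemma lt_top' {k : ℕ} (hk : G.Bdd k) {w : ℝ × ℝ} (hw : w ∈ G.P) : G.n k w < G.top k := by
  obtain ⟨z, hz, h⟩ := G.exists_larger k hw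
  exact h.trans_le (le_csSup hk ⟨z, hz, rfl⟩)

lemma top_pos {k : ℕ} (hk : G.Bdd k) : 0 < G.top k := by
  simpa [n, cross] using G.lt_top' hk G.zero_mem

open Classical in
/-- Rescaled level, with values in `[0, ∞)`. -/
def tau (k : ℕ) (b : ℝ) : ℝ := if G.Bdd k then max b 0 / (G.top k - b) else max b 0

open Classical in
/-- The level with a given rescaled value. -/
def lev (k : ℕ) (t : ℝ) : ℝ :=
  if G.Bdd k then G.top k * max t 0 / (1 + max t 0) else max t 0

lemma lev_nonneg (k : ℕ) (t : ℝ) : 0 ≤ G.lev k t := by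
  unfold lev
  split
  · next h => exact div_nonneg (mul_nonneg (G.top_pos h).le (le_max_right _ _)) (by positivity)
  · exact le_max_right _ _

lemma lev_zero (k : ℕ) : G.lev k 0 = 0 := by simp [lev]

lemma lev_mono (k : ℕ) : Monotone (G.lev k) := by
  intro s t hst
  have h : max s 0 ≤ max t 0 := max_le_max_right _ hst
  unfold lev
  split
  · next hk =>
    have := G.top_pos hk
    have h0 : 0 ≤ max s 0 := le_max_right _ _
    rw [div_le_div_iff₀ (by positivity) (by positivity)]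
    nlinarith [mul_le_mul_of_nonneg_left h this.le]
  · exact h

lemma continuous_lev (k : ℕ) : Continuous (G.lev k) := by
  unfold lev
  split
  · exact (by fun_prop : Continuous fun t : ℝ => G.top k * max t 0).div (by fun_prop)
      fun t => by positivity
  · fun_prop

lemma lev_valid (k : ℕ) (t : ℝ) : ∃ w ∈ G.P, G.n k w = G.lev k t := by
  suffices ∃ w ∈ G.P, G.lev k t ≤ G.n k w by
    obtain ⟨w, hw, h⟩ := this
    exact G.exists_of_mem_line hw (G.lev_nonneg k t) h
  unfold lev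
  split
  · next hk =>
    have hlt : G.top k * max t 0 / (1 + max t 0) < G.top k := by
      rw [div_lt_iff₀ (by positivity)]; nlinarith [G.top_pos hk]
    obtain ⟨_, ⟨w, hw, rfl⟩, h⟩ := exists_lt_of_lt_csSup (s := G.n k '' G.P) ⟨_, 0, G.zero_mem, rfl⟩ hlt
    exact ⟨w, hw, h.le⟩
  · next hk =>
    obtain ⟨_, ⟨w, hw, rfl⟩, h⟩ := not_bddAbove_iff.1 hk (max t 0)
    exact ⟨w, hw, h.le⟩

lemma tau_nonneg {k : ℕ} {w : ℝ × ℝ} (hw : w ∈ G.P) : 0 ≤ G.tau k (G.n k w) := by
  unfold tau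
  split
  · next hk => exact div_nonneg (le_max_right _ _) (sub_pos.2 (G.lt_top' hk hw)).le
  · exact le_max_right _ _

lemma lev_tau {k : ℕ} {w : ℝ × ℝ} (hw : w ∈ G.P) (h0 : 0 ≤ G.n k w) :
    G.lev k (G.tau k (G.n k w)) = G.n k w := by
  unfold lev tau
  split
  · next hk =>
    have h1 := sub_pos.2 (G.lt_top' hk hw)
    have h2 := G.top_pos hk
    rw [max_eq_left h0, max_eq_left (div_nonneg h0 h1.le)]
    field_simp
    ring
  · rw [max_eq_left h0, max_eq_left h0]

lemma tau_lev (k : ℕ) {t : ℝ} (ht : 0 ≤ t) : G.tau k (G.lev k t) = t := by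
  unfold lev tau
  split
  · next hk =>
    have h2 := G.top_pos hk
    rw [max_eq_left ht, max_eq_left (div_nonneg (mul_nonneg h2.le ht) (by linarith))]
    field_simp
    ring
  · rw [max_eq_left ht, max_eq_left ht]

lemma tau_le_tau {k : ℕ} {w : ℝ × ℝ} (hw : w ∈ G.P) {b : ℝ} (hb : b ≤ G.n k w) :
    G.tau k b ≤ G.tau k (G.n k w) := by
  unfold tau
  split
  · next hk =>
    have h1 := sub_pos.2 (G.lt_top' hk hw)
    exact div_le_div₀ (le_max_right _ _) (max_le_max_right _ hb) h1 (by linarith)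
  · exact max_le_max_right _ hb

lemma le_lev_of_tau_le {k : ℕ} {w : ℝ × ℝ} (hw : w ∈ G.P) {t : ℝ}
    (h : G.tau k (G.n k w) ≤ t) : G.n k w ≤ G.lev k t := by
  rcases le_total (G.n k w) 0 with h0 | h0
  · exact h0.trans (G.lev_nonneg k t)
  · calc G.n k w = G.lev k (G.tau k (G.n k w)) := (G.lev_tau hw h0).symm
      _ ≤ _ := G.lev_mono k h

lemma lev_le_of_le_tau {k : ℕ} {w : ℝ × ℝ} (hw : w ∈ G.P) {t : ℝ} (ht : 0 < t)
    (h : t ≤ G.tau k (G.n k w)) : G.lev k t ≤ G.n k w := by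
  rcases le_or_gt (G.n k w) 0 with h0 | h0
  · exfalso
    have hz : G.tau k (G.n k w) = 0 := by
      unfold tau
      split <;> simp [max_eq_right h0]
    linarith
  · calc G.lev k t ≤ G.lev k (G.tau k (G.n k w)) := G.lev_mono k h
      _ = _ := G.lev_tau hw h0.le

lemma continuousOn_tau_n (k : ℕ) : ContinuousOn (fun w => G.tau k (G.n k w)) G.P := by
  unfold tau
  split
  · next hk =>
    exact ((G.n_continuous k).max continuous_const).continuousOn.div
      (continuous_const.sub (G.n_continuous k)).continuousOn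
      fun w hw => (sub_pos.2 (G.lt_top' hk hw)).ne'
  · exact ((G.n_continuous k).max continuous_const).continuousOn

end Frame

end Vale.Agent.P072
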