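import Vale.Agent.P072.Existence

/-! Permanence on a two-dimensional positive class. -/

noncomputable section

namespace Vale.Agent.P072

open MeasureTheory Finset

variable {d : ℕ}

lemma field_mem (R : Finset (Reaction d)) (κ : Reaction d → ℝ) (x : Fin d → ℝ) :
    field R κ x ∈ stoich R :=
  sum_mem fun r hr => Submodule.smul_mem _ _ (Submodule.subset_span ⟨r, hr, rfl⟩)

namespace Frame

variable {G : Frame d} {R : Finset (Reaction d)} {π : (Fin d → ℝ) →ₗ[ℝ] ℝ × ℝ}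

lemma L_proj (hrange : LinearMap.range G.L = stoich R) (hπ : ∀ w, π (G.L w) = w)
    {v : Fin d → ℝ} (hv : v ∈ stoich R) : G.L (π v) = v := by
  rw [← hrange] at hv
  obtain ⟨p, rfl⟩ := hv
  rw [hπ]

lemma x_mem_class (hrange : LinearMap.range G.L = stoich R) {w : ℝ × ℝ} (hw : w ∈ G.P) :
    G.x w ∈ posClass R G.c := by
  refine ⟨hw, ?_⟩
  rw [← hrange]
  exact ⟨w, by funext i; simp [x]⟩

lemma x_proj (hrange : LinearMap.range G.L = stoich R) (hπ : ∀ w, π (G.L w) = w)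
    {y : Fin d → ℝ} (hy : y - G.c ∈ stoich R) : G.x (π (y - G.c)) = y := by
  funext i
  simp only [x, L_proj hrange hπ hy, Pi.sub_apply]
  ring

lemma proj_mem (hrange : LinearMap.range G.L = stoich R) (hπ : ∀ w, π (G.L w) = w)
    {y : Fin d → ℝ} (hy : y ∈ posClass R G.c) : π (y - G.c) ∈ G.P := fun i => by
  rw [x_proj hrange hπ hy.2]
  exact hy.1 i

/-- A solution in the class gives a planar solution. -/
lemma sol_of_isSolution (hrange : LinearMap.range G.L = stoich R) (hπ : ∀ w, π (G.L w) = w)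
    {k : ℝ → Reaction d → ℝ} {x : ℝ → Fin d → ℝ} {T : ℝ} (hT : 0 ≤ T) (h : IsSolution R k x T)
    (h0 : x 0 ∈ posClass R G.c) :
    G.Sol R π k (fun t => π (x t - G.c)) 0 T ∧
      ∀ t ∈ Set.Icc 0 T, G.x (π (x t - G.c)) = x t := by
  obtain ⟨hpos, hint, heq⟩ := h
  set A : (Fin d → ℝ) →L[ℝ] ℝ × ℝ := LinearMap.toContinuousLinearMap π
  set B : (Fin d → ℝ) →L[ℝ] (Fin d → ℝ) :=
    LinearMap.toContinuousLinearMap (G.L.comp π - LinearMap.id)
  have hsub : ∀ t ∈ Set.Icc 0 T, IntervalIntegrable (fun s => field R (k s) (x s)) volume 0 t :=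
    fun t ht => hint.mono_set (by
      rw [Set.uIcc_of_le ht.1, Set.uIcc_of_le hT]; exact Set.Icc_subset_Icc le_rfl ht.2)
  have hB : ∀ t ∈ Set.Icc 0 T, B (x t - G.c) = 0 := by
    intro t ht
    have hz : ∀ v ∈ stoich R, B v = 0 := fun v hv => by
      show G.L (π v) - v = 0
      rw [L_proj hrange hπ hv, sub_self]
    rw [heq t ht, add_sub_right_comm, map_add, hz _ h0.2, zero_add,
      ← B.intervalIntegral_comp_comm (hsub t ht)]
    simp [hz _ (field_mem R _ _)]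
  have hx : ∀ t ∈ Set.Icc 0 T, G.x (π (x t - G.c)) = x t := by
    intro t ht
    funext i
    have := congrFun (hB t ht) i
    change G.L (π (x t - G.c)) i - (x t - G.c) i = 0 at this
    simp only [Pi.sub_apply] at this
    simp only [Frame.x]
    linarith
  have he : Set.EqOn (fun s => A (field R (k s) (x s)))
      (fun s => G.vel R π (k s) (π (x s - G.c))) (Set.Icc 0 T) := fun s hs => by
    show π _ = π _
    rw [hx s hs]
  refine ⟨⟨hT, fun t ht i => by rw [hx t ht]; exact hpos t ht i, ?_, fun t ht => ?_⟩, hx⟩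
  · refine IntervalIntegrable.congr ?_ ⟨A.integrable_comp hint.1, A.integrable_comp hint.2⟩
    rw [Set.uIoc_of_le hT]
    exact he.mono Set.Ioc_subset_Icc_self
  · show A (x t - G.c) = A (x 0 - G.c) + _
    rw [heq t ht, add_sub_right_comm, map_add, ← A.intervalIntegral_comp_comm (hsub t ht)]
    congr 1
    refine intervalIntegral.integral_congr (he.mono ?_)
    rw [Set.uIcc_of_le ht.1]
    exact Set.Icc_subset_Icc le_rfl ht.2

/-- A planar solution gives a solution in the class. -/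
lemma isSolution_of_sol (hrange : LinearMap.range G.L = stoich R) (hπ : ∀ w, π (G.L w) = w)
    {k : ℝ → Reaction d → ℝ} {w : ℝ → ℝ × ℝ} {T : ℝ} (h : G.Sol R π k w 0 T) :
    IsSolution R k (fun t => G.x (w t)) T := by
  set A : ℝ × ℝ →L[ℝ] (Fin d → ℝ) := LinearMap.toContinuousLinearMap G.L
  have he : ∀ s, A (G.vel R π (k s) (w s)) = field R (k s) (G.x (w s)) :=
    fun s => L_proj hrange hπ (field_mem R _ _)
  refine ⟨h.mem, ?_, fun t ht => ?_⟩
  · have : IntervalIntegrable (fun s => A (G.vel R π (k s) (w s))) volume 0 T :=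
      ⟨A.integrable_comp h.int.1, A.integrable_comp h.int.2⟩
    simpa only [he] using this
  · simp only
    conv_lhs => rw [h.eqn t ht, G.x_add]
    congr 1
    rw [← intervalIntegral.integral_congr (fun s _ => he s)]
    exact (A.intervalIntegral_comp_comm (h.intg le_rfl ht.1 ht.2)).symm

end Frame

/-- Everything about a two-dimensional class. -/
theorem planar_permanence (R : Finset (Reaction d)) (hR : WeaklyReversible R)
    (hS : Module.finrank ℝ (stoich R) = 2) {ε : ℝ} (hε : 0 < ε) (hε1 : ε ≤ 1)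
    {c : Fin d → ℝ} (hc : ∀ i, 0 < c i) :
    ∃ K : Set (Fin d → ℝ), IsCompact K ∧ K ⊆ posClass R c ∧
      (∀ x₀ ∈ posClass R c, ∃ K₀ : Set (Fin d → ℝ), IsCompact K₀ ∧ K₀ ⊆ posClass R c ∧
        ∀ (k : ℝ → Reaction d → ℝ) (x : ℝ → Fin d → ℝ) (T : ℝ), 0 ≤ T →
          (∀ t ∈ Set.Icc 0 T, ∀ r ∈ R, k t r ∈ Set.Icc ε ε⁻¹) →
          IsSolution R k x T → x 0 = x₀ → ∀ t ∈ Set.Icc 0 T, x t ∈ K₀) ∧
      (∀ (k : ℝ → Reaction d → ℝ) (x : ℝ → Fin d → ℝ),
        (∀ t, 0 ≤ t → ∀ r ∈ R, k t r ∈ Set.Icc ε ε⁻¹) →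
        (∀ T, 0 ≤ T → IsSolution R k x T) → x 0 ∈ posClass R c →
          ∃ T₀, ∀ t, T₀ ≤ t → x t ∈ K) ∧
      ∀ k : ℝ → Reaction d → ℝ, (∀ t, 0 ≤ t → ∀ r ∈ R, k t r ∈ Set.Icc ε ε⁻¹) →
        (∀ r ∈ R, ContinuousOn (fun t => k t r) (Set.Ici 0)) → ∀ x₀ ∈ posClass R c,
          ∃ x : ℝ → Fin d → ℝ, x 0 = x₀ ∧ (∀ T, 0 ≤ T → IsSolution R k x T) ∧
            ∀ (y : ℝ → Fin d → ℝ) (T : ℝ), 0 ≤ T → IsSolution R k y T → y 0 = x₀ →
              Set.EqOn y x (Set.Icc 0 T) := by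
  obtain ⟨G, rfl, hrange, hdir⟩ := exists_frame R hS hc
  obtain ⟨π, hπ⟩ := exists_proj G
  obtain ⟨H, hH, hwidth⟩ := exists_width R hR hε G hrange hdir hπ
  obtain ⟨lvl, hmod, hsep⟩ := G.exists_levels H hH.le
  obtain ⟨R₀, hgood⟩ := G.exists_good R π lvl hε hε1 hH hwidth hmod hsep
  have hbox : ∀ ρ, ∃ Q : Set (Fin d → ℝ), IsCompact Q ∧ Q ⊆ posClass R G.c ∧
      ∀ w ∈ G.P, G.V lvl w ≤ ρ → G.x w ∈ Q := by
    intro ρ
    obtain ⟨Q, hQP, hQ, hQm⟩ := G.sublevel lvl ρ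
    refine ⟨G.x '' Q, hQ.image G.continuous_x, ?_, fun w hw hV => ⟨w, hQm w hw hV, rfl⟩⟩
    rintro _ ⟨w, hw, rfl⟩
    exact Frame.x_mem_class hrange (hQP hw)
  obtain ⟨K, hK, hKP, hKm⟩ := hbox R₀
  refine ⟨K, hK, hKP, fun x₀ hx₀ => ?_, fun k x hk hsol hx0 => ?_, fun k hk hkc x₀ hx₀ => ?_⟩
  · set ρ := max R₀ (G.V lvl (π (x₀ - G.c)))
    obtain ⟨K₀, hK₀, hK₀P, hK₀m⟩ := hbox ρ
    refine ⟨K₀, hK₀, hK₀P, fun k x T hT hk hsol hx0 t ht => ?_⟩
    obtain ⟨hs, hx⟩ := Frame.sol_of_isSolution hrange hπ hT hsol (by rw [hx0]; exact hx₀)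
    obtain ⟨h1, h2⟩ := hs.mem_sub hgood hk (le_max_left R₀ _)
      (by rw [hx0]; exact le_max_right _ _) t ht
    rw [← hx t ht]
    exact hK₀m _ h1 h2
  · have hs : ∀ T, 0 ≤ T → G.Sol R π k (fun t => π (x t - G.c)) 0 T := fun T hT =>
      (Frame.sol_of_isSolution hrange hπ hT (hsol T hT) hx0).1
    obtain ⟨T₀, hT₀, hev⟩ := Frame.eventually_le hs hε hgood hk
    refine ⟨T₀, fun t ht => ?_⟩
    have ht0 : 0 ≤ t := hT₀.trans ht
    rw [← (Frame.sol_of_isSolution hrange hπ ht0 (hsol t ht0) hx0).2 t ⟨ht0, le_rfl⟩]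
    exact hKm _ ((hs t ht0).mem t ⟨ht0, le_rfl⟩) (hev t ht)
  · set k' : ℝ → Reaction d → ℝ := fun t => k (max t 0)
    have hk' : ∀ t, 0 ≤ t → k' t = k t := fun t ht => by simp [k', max_eq_left ht]
    have hiff : ∀ (x : ℝ → Fin d → ℝ) (T : ℝ), 0 ≤ T →
        (IsSolution R k' x T ↔ IsSolution R k x T) := by
      intro x T hT
      have he : ∀ s, 0 ≤ s → field R (k' s) (x s) = field R (k s) (x s) := fun s hs => by
        rw [hk' s hs]
      have hi : IntervalIntegrable (fun s => field R (k' s) (x s)) volume 0 T ↔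
          IntervalIntegrable (fun s => field R (k s) (x s)) volume 0 T := by
        refine intervalIntegrable_congr fun s hs => he s ?_
        rw [Set.uIoc_of_le hT] at hs
        exact hs.1.le
      have hint : ∀ t ∈ Set.Icc 0 T, (∫ s in (0 : ℝ)..t, field R (k' s) (x s)) =
          ∫ s in (0 : ℝ)..t, field R (k s) (x s) := fun t ht => by
        refine intervalIntegral.integral_congr fun s hs => he s ?_
        rw [Set.uIcc_of_le ht.1] at hs
        exact hs.1
      simp only [IsSolution, hi]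
      exact and_congr_right fun _ => and_congr_right fun _ =>
        forall₂_congr fun t ht => by rw [hint t ht]
    obtain ⟨w, hw0, hws, hwu⟩ := Frame.exists_unique_sol hε hgood (k := k')
      (fun t r hr => hk _ (le_max_right _ _) r hr)
      (fun r hr => (hkc r hr).comp_continuous (continuous_id.max continuous_const)
        fun t => le_max_right t 0)
      (Frame.proj_mem hrange hπ hx₀)
    have hx00 : G.x (w 0) = x₀ := by rw [hw0, Frame.x_proj hrange hπ hx₀.2]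
    refine ⟨fun t => G.x (w t), hx00, fun T hT => (hiff _ T hT).1
      (Frame.isSolution_of_sol hrange hπ (hws T hT)), fun y T hT hy hy0 t ht => ?_⟩
    obtain ⟨hs, hx⟩ := Frame.sol_of_isSolution hrange hπ hT ((hiff y T hT).2 hy)
      (by rw [hy0]; exact hx₀)
    rw [← hx t ht]
    exact congrArg G.x (hwu T _ hT hs (by rw [hy0]) ht)

end Vale.Agent.P072
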