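import Vale.Agent.P072.Bands

/-! The potential and compatibility of its active directions. -/

noncomputable section

namespace Vale.Agent.P072

open Filter Topology Finset

namespace Frame

variable {d : ℕ} (G : Frame d) (H : ℝ)

lemma n_dir_prv (k : ℕ) :
    G.n k (G.F.dir (G.F.prv k)) = cross (G.F.dir (G.F.prv k)) (G.F.dir k) := by
  simp only [n]; rw [← cross_comm]

lemma prv_mod (k : ℕ) : (G.F.prv k + 1) % G.F.N = k % G.F.N := by
  have := G.F.N_pos
  rw [Fan.prv, show k + (G.F.N - 1) + 1 = k + G.F.N by omega, Nat.add_mod_right]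

/-- A family of compatible level parametrisations. -/
lemma exists_levels (hH : 0 ≤ H) : ∃ lvl : ℕ → (ℝ ≃o ℝ), (∀ k, lvl (k % G.F.N) = lvl k) ∧
    ∀ k, ∀ᶠ R in atTop, G.Fmap H k (k + 1) (lvl k R) < lvl (k + 1) R ∧
      G.Fmap H (k + 1) k (lvl (k + 1) R) < lvl k R := by
  classical
  set N := G.F.N
  have hN : 6 ≤ N := by
    have := G.F.three_le
    simp only [N, Fan.N]; omega
  choose T hT using G.exists_step H hH
  let w : ℕ → (ℝ ≃o ℝ) := fun m => Nat.rec (OrderIso.refl ℝ) (fun i e => e.trans (T (i + 1))) m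
  set A := fun R => G.Fmap H 1 0 (w 0 R) + G.Fmap H (N - 1) 0 (w (N - 2) R)
  have hA0 : ∀ R, 0 ≤ A R := fun R => add_nonneg (G.Fmap_nonneg H hH _ _ _) (G.Fmap_nonneg H hH _ _ _)
  have hAm : Monotone A :=
    ((G.Fmap_mono H hH 1 0).comp (w 0).monotone).add
      ((G.Fmap_mono H hH (N - 1) 0).comp (w (N - 2)).monotone)
  have hAc : Continuous A :=
    ((G.continuous_Fmap H 1 0).comp (w 0).continuous).add
      ((G.continuous_Fmap H (N - 1) 0).comp (w (N - 2)).continuous)
  let L0 : ℝ ≃o ℝ := StrictMono.orderIsoOfSurjective (fun R => R + A R)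
    (strictMono_id.add_monotone hAm) ((continuous_id.add hAc).surjective
      (tendsto_atTop_mono (fun t => le_add_of_nonneg_right (hA0 t)) tendsto_id)
      (tendsto_atBot_mono' _ (by
        filter_upwards [eventually_le_atBot (0 : ℝ)] with t ht
        exact add_le_add_right (hAm ht) t) (tendsto_atBot_add_const_right _ (A 0) tendsto_id)))
  let lvl : ℕ → (ℝ ≃o ℝ) := fun k => if k % N = 0 then L0 else w (k % N - 1)
  refine ⟨lvl, fun k => by simp only [lvl, Nat.mod_mod], fun k => ?_⟩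
  have hk : k % N < N := Nat.mod_lt _ (by omega)
  obtain ⟨Ca, hCa⟩ := G.edge H hH 1 (by
    simp only [n]
    have := G.F.cross_succ 0
    rw [G.dir0, cross_comm] at this
    linarith)
  obtain ⟨Cb, hCb⟩ := G.edge H hH (N - 1) (by
    simp only [n]
    have := G.F.cross_succ (N - 1)
    rw [show N - 1 + 1 = 0 + N by omega, G.F.periodic, G.dir0] at this
    linarith)
  have hFa : ∀ t, G.Fmap H 0 1 t ≤ Ca := fun t => by
    obtain ⟨w, hw, h0, -, -, he⟩ := G.exists_Fmap H hH 0 1 t
    rw [← he]; exact hCa w hw h0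
  have hFb : ∀ t, G.Fmap H 0 (N - 1) t ≤ Cb := fun t => by
    obtain ⟨w, hw, h0, -, -, he⟩ := G.exists_Fmap H hH 0 (N - 1) t
    rw [← he]; exact hCb w hw h0
  have hL0 : ∀ R, L0 R = R + A R := fun R => rfl
  by_cases h0 : k % N = 0
  · have h1 : (k + 1) % N = 1 := by rw [Nat.add_mod, h0, zero_add, Nat.mod_mod,
      Nat.one_mod_eq_one.2 (by omega)]
    have e0 : k % N = 0 % N := by rw [h0, Nat.zero_mod]
    have e1 : (k + 1) % N = 1 % N := by rw [h1, Nat.one_mod_eq_one.2 (by omega)]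
    have la : lvl k = L0 := by simp only [lvl, h0, if_pos]
    have lb : lvl (k + 1) = w 0 := by simp [lvl, h1]
    filter_upwards [(w 0).tendsto_atTop.eventually (eventually_gt_atTop Ca),
      eventually_gt_atTop (0 : ℝ)] with R hR hR0
    rw [G.Fmap_congr H e0 e1, G.Fmap_congr H e1 e0, la, lb, hL0]
    exact ⟨(hFa _).trans_lt hR, by
      have := G.Fmap_nonneg H hH (N - 1) 0 (w (N - 2) R)
      simp only [A]; linarith⟩
  by_cases hlast : k % N = N - 1
  · have h1 : (k + 1) % N = 0 := by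
      rw [Nat.add_mod, hlast, Nat.one_mod_eq_one.2 (by omega), show N - 1 + 1 = N by omega,
        Nat.mod_self]
    have e0 : k % N = (N - 1) % N := by rw [hlast, Nat.mod_eq_of_lt (by omega)]
    have e1 : (k + 1) % N = 0 % N := by rw [h1, Nat.zero_mod]
    have la : lvl k = w (N - 2) := by
      simp only [lvl, hlast]
      rw [if_neg (by omega), show N - 1 - 1 = N - 2 by omega]
    have lb : lvl (k + 1) = L0 := by simp only [lvl, h1, if_pos]
    filter_upwards [(w (N - 2)).tendsto_atTop.eventually (eventually_gt_atTop Cb),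
      eventually_gt_atTop (0 : ℝ)] with R hR hR0
    rw [G.Fmap_congr H e0 e1, G.Fmap_congr H e1 e0, la, lb, hL0]
    exact ⟨by
      have := G.Fmap_nonneg H hH 1 0 (w 0 R)
      simp only [A]; linarith, (hFb _).trans_lt hR⟩
  · set m := k % N
    have hm1 : (k + 1) % N = m + 1 := by
      rw [Nat.add_mod, Nat.one_mod_eq_one.2 (by omega), Nat.mod_eq_of_lt (show m + 1 < N by omega)]
    have e0 : k % N = m % N := by rw [Nat.mod_mod]
    have e1 : (k + 1) % N = (m + 1) % N := by rw [hm1, Nat.mod_eq_of_lt (by omega)]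
    have la : lvl k = w (m - 1) := by simp only [lvl]; rw [if_neg h0]
    have lb : lvl (k + 1) = (w (m - 1)).trans (T m) := by
      simp only [lvl, hm1, Nat.add_sub_cancel, Nat.succ_ne_zero, if_false]
      obtain ⟨i, hi⟩ : ∃ i, m = i + 1 := ⟨m - 1, by omega⟩
      rw [hi]
      rfl
    filter_upwards [(w (m - 1)).tendsto_atTop.eventually (hT m)] with R hR
    rw [G.Fmap_congr H e0 e1, G.Fmap_congr H e1 e0, la, lb]
    exact hR

variable (lvl : ℕ → (ℝ ≃o ℝ))

/-- The potential. -/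
def V (w : ℝ × ℝ) : ℝ :=
  (Finset.range G.F.N).sup' (Finset.nonempty_range_iff.2 G.F.N_pos.ne')
    fun k => (lvl k).symm (G.tau k (G.n k w))

lemma continuousOn_V : ContinuousOn (G.V lvl) G.P :=
  ContinuousOn.finset_sup'_apply _ fun k _ =>
    (lvl k).symm.continuous.comp_continuousOn (G.continuousOn_tau_n k)

lemma V_le_iff {w : ℝ × ℝ} {R : ℝ} :
    G.V lvl w ≤ R ↔ ∀ k < G.F.N, G.tau k (G.n k w) ≤ lvl k R := by
  rw [V, Finset.sup'_le_iff]
  simp only [Finset.mem_range, OrderIso.symm_apply_le]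

lemma sublevel (R : ℝ) : ∃ Q ⊆ G.P, IsCompact Q ∧ ∀ w ∈ G.P, G.V lvl w ≤ R → w ∈ Q := by
  obtain ⟨Q, hQP, hQ, hmem⟩ := G.sublevel_subset (∑ k ∈ Finset.range G.F.N, |lvl k R|)
  refine ⟨Q, hQP, hQ, fun w hw h => hmem w hw fun k hk => ?_⟩
  exact ((G.V_le_iff lvl).1 h k hk).trans ((le_abs_self _).trans
    (Finset.single_le_sum (f := fun k => |lvl k R|) (fun i _ => abs_nonneg _) (Finset.mem_range.2 hk)))

/-- At high levels an active direction has its two neighbours strictly outside the bands. -/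
lemma active (hH : 0 < H) (hmod : ∀ k, lvl (k % G.F.N) = lvl k)
    (hsep : ∀ k, ∀ᶠ R in atTop, G.Fmap H k (k + 1) (lvl k R) < lvl (k + 1) R ∧
      G.Fmap H (k + 1) k (lvl (k + 1) R) < lvl k R) (k : ℕ) :
    ∀ᶠ R in atTop, ∀ w ∈ G.P, G.V lvl w ≤ R → G.tau k (G.n k w) = lvl k R →
      H < G.xi w (G.F.dir (G.F.prv k)) ∧ G.xi w (G.F.dir (k + 1)) < -H := by
  set j := k + 1
  set i := G.F.prv k
  set c := cross (G.F.dir i) (G.F.dir j)
  set α := cross (G.F.dir k) (G.F.dir j)
  set β := cross (G.F.dir i) (G.F.dir k)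
  have hc : 0 < c := G.F.cross_prv_succ k
  have hα : 0 < α := G.F.cross_succ k
  have hβ : 0 < β := G.F.cross_prv k
  obtain ⟨T0, hT0⟩ := G.deep H k k (max (H / α) (H / β))
  obtain ⟨Cj, -, hside_j⟩ := G.nonneg_of_deep H j
  obtain ⟨Ci, -, hside_i⟩ := G.nonneg_of_deep H i
  set D := max (H) (max ((c * (|Cj| * α + |G.sc j (G.F.dir k)| * H) + β * H) / α + 1)
    ((c * (|Ci| * β + |G.sc i (G.F.dir k)| * H) + α * H) / β + 1))
  obtain ⟨Q, hQP, hQ, hmem⟩ := G.bounded_xi_pair (p := G.F.dir i) (q := G.F.dir j) hc.ne' D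
  obtain ⟨TQ, hTQ⟩ := hQ.exists_bound_of_continuousOn ((G.continuousOn_tau_n k).mono hQP)
  filter_upwards [(lvl k).tendsto_atTop.eventually
      (eventually_gt_atTop (max (max T0 TQ) 0)), hsep k, hsep i] with R hR hsj hsi w hw hV hact
  set t := lvl k R
  have ht0 : 0 < t := lt_of_le_of_lt (le_max_right _ _) hR
  have hall : ∀ m, G.tau m (G.n m w) ≤ lvl m R := fun m => by
    have := (G.V_le_iff lvl).1 hV (m % G.F.N) (Nat.mod_lt _ G.F.N_pos)
    rwa [G.tau_mod, G.n_mod, hmod] at this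
  have hnw : G.n k w = G.lev k t := by
    rw [← hact, G.lev_tau hw ?_]
    by_contra hneg
    push Not at hneg
    have : G.tau k (G.n k w) = 0 := by
      unfold tau
      split <;> simp [max_eq_right hneg.le]
    linarith
  -- the reference point on the ray
  obtain ⟨hy, hy0⟩ := G.yb_mem (k := k) (G.lev_valid k t) 0
  set y := G.yb k (G.lev k t) 0
  have hyn : G.n k y = G.lev k t := G.n_yb _ _ _
  have hyband : G.Band H k y := ⟨hy, by rw [hy0, abs_zero]; exact hH.le⟩
  have hye := hT0 y hyband (by rw [hyn]; exact G.lev_nonneg _ _)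
    (by rw [hyn, G.tau_lev k ht0.le]; exact lt_of_le_of_lt ((le_max_left _ _).trans (le_max_left _ _)) hR)
  have hyj : G.xi y (G.F.dir j) < -H := by
    rw [G.xi_decomp y k, hy0, mul_zero, add_zero]
    have : G.n k (G.F.dir j) = -α := rfl
    rw [this]
    have h := lt_of_le_of_lt (le_max_left _ _) hye
    rw [div_lt_iff₀ hα] at h
    linarith
  have hyi : H < G.xi y (G.F.dir i) := by
    rw [G.xi_decomp y k, hy0, mul_zero, add_zero, G.n_dir_prv]
    have h := lt_of_le_of_lt (le_max_right _ _) hye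
    rw [div_lt_iff₀ hβ] at h
    linarith
  have hylev : ∀ m, G.Fmap H k m t < lvl m R → G.tau m (G.n m y) ≤ lvl m R := fun m hm =>
    (G.le_Fmap H hyband (by rw [hyn]; exact G.lev_nonneg _ _)
      (by rw [hyn, G.tau_lev k ht0.le]; exact le_max_left _ _)).trans hm.le
  have hpi : G.Fmap H k i t < lvl i R := by
    have := hsi.2
    rw [G.Fmap_congr H (G.prv_mod k) rfl] at this
    rwa [show lvl (i + 1) = lvl k by rw [← hmod (i + 1), G.prv_mod k, hmod]] at this
  -- the segment from `y` to `w`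
  set z : ℝ → ℝ × ℝ := fun θ => (1 - θ) • y + θ • w
  have hz : ∀ θ ∈ Set.Icc (0 : ℝ) 1, z θ ∈ G.P := fun θ hθ =>
    G.convex_P hy hw (sub_nonneg.2 hθ.2) hθ.1 (sub_add_cancel 1 θ)
  have hzn : ∀ θ m, G.n m (z θ) = (1 - θ) * G.n m y + θ * G.n m w := fun θ m => by
    simp only [z, n_add, n_smul]
  have hzlev : ∀ θ ∈ Set.Icc (0 : ℝ) 1, ∀ m, G.tau m (G.n m y) ≤ lvl m R →
      G.tau m (G.n m (z θ)) ≤ lvl m R := by
    intro θ hθ m hm
    rcases le_total (G.n m y) (G.n m w) with h | h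
    · exact (G.tau_le_tau hw (by rw [hzn]; nlinarith [hθ.2])).trans (hall m)
    · exact (G.tau_le_tau hy (by rw [hzn]; nlinarith [hθ.1])).trans hm
  set f : ℝ → ℝ := fun θ => min (G.xi (z θ) (G.F.dir i)) (-G.xi (z θ) (G.F.dir j))
  have hfc : ContinuousOn f (Set.Icc 0 1) := by
    have hzc : ContinuousOn z (Set.Icc 0 1) := by fun_prop
    exact continuous_min.comp_continuousOn (((G.continuousOn_xi (G.F.dir i)).comp hzc hz).prodMk
      ((G.continuousOn_xi (G.F.dir j)).comp hzc hz).neg)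
  suffices h : H < f 1 by
    simp only [f, z, sub_self, zero_smul, one_smul, zero_add, lt_min_iff] at h
    exact ⟨h.1, by linarith [h.2]⟩
  by_contra hle
  push Not at hle
  set S := {θ ∈ Set.Icc (0 : ℝ) 1 | f θ ≤ H}
  have hSc : IsClosed S := hfc.preimage_isClosed_of_isClosed isClosed_Icc isClosed_Iic
  have hSne : S.Nonempty := ⟨1, ⟨zero_le_one, le_rfl⟩, hle⟩
  have hSb : BddBelow S := ⟨0, fun θ hθ => hθ.1.1⟩
  obtain ⟨hθI, hθle⟩ := hSc.csInf_mem hSne hSb
  set θ := sInf S
  have hf0 : H < f 0 := by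
    simp only [f, z, sub_zero, one_smul, zero_smul, add_zero, lt_min_iff]
    exact ⟨hyi, by linarith⟩
  have hθ0 : 0 < θ := lt_of_le_of_ne hθI.1 fun h => by rw [← h] at hθle; linarith
  have hθge : H ≤ f θ := by
    by_contra hlt
    push Not at hlt
    have hev := (hfc θ hθI).eventually (gt_mem_nhds hlt)
    obtain ⟨r, hr, hball⟩ := Metric.eventually_nhds_iff.1 (eventually_nhdsWithin_iff.1 hev)
    have hm : max 0 (θ - r / 2) ∈ Set.Icc (0 : ℝ) 1 :=
      ⟨le_max_left _ _, max_le zero_le_one (by linarith [hθI.2])⟩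
    have hlt' : max 0 (θ - r / 2) < θ := max_lt hθ0 (by linarith)
    have hd : dist (max 0 (θ - r / 2)) θ < r := by
      rw [Real.dist_eq, abs_lt]; constructor <;> linarith [le_max_right 0 (θ - r / 2)]
    exact absurd (csInf_le hSb ⟨hm, (hball hd hm).le⟩) (not_le.2 hlt')
  have hfeq : f θ = H := le_antisymm hθle hθge
  have hzk : G.tau k (G.n k (z θ)) = t := by
    rw [hzn, hyn, hnw, ← add_mul, sub_add_cancel, one_mul, G.tau_lev k ht0.le]
  have hzP := hz θ hθI
  obtain ⟨hgi, hgj⟩ : H ≤ G.xi (z θ) (G.F.dir i) ∧ H ≤ -G.xi (z θ) (G.F.dir j) := by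
    have := hθge; simp only [f, le_min_iff] at this; exact this
  have hDH : H ≤ D := le_max_left _ _
  have hbig : D < G.xi (z θ) (G.F.dir i) ∨ D < -G.xi (z θ) (G.F.dir j) := by
    by_contra hb
    push Not at hb
    have := hTQ _ (hmem _ hzP (abs_le.2 ⟨by linarith, hb.1⟩) (abs_le.2 ⟨by linarith, by linarith⟩))
    rw [Real.norm_eq_abs, hzk] at this
    linarith [le_abs_self t, (le_max_right T0 TQ).trans (le_max_left (max T0 TQ) 0)]
  have hk : c * G.xi (z θ) (G.F.dir k) =
      α * G.xi (z θ) (G.F.dir i) + β * G.xi (z θ) (G.F.dir j) := by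
    rw [← xi_smul, cross_decomp (G.F.dir i) (G.F.dir j) (G.F.dir k), xi_add, xi_smul, xi_smul]
  rcases min_eq_iff.1 hfeq with ⟨he, -⟩ | ⟨he, -⟩
  · -- the backward band
    have hD : D < -G.xi (z θ) (G.F.dir j) := hbig.resolve_left (by linarith)
    have hb : G.Band H i (z θ) := ⟨hzP, by rw [he, abs_of_pos hH]⟩
    have hni : G.n i (G.F.dir k) = -β := rfl
    have h0 : 0 ≤ G.n i (z θ) := by
      refine hside_i _ hb ?_
      have hdec := G.xi_decomp (z θ) i (G.F.dir k)
      rw [hni, he] at hdec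
      have h1 : (c * (|Ci| * β + |G.sc i (G.F.dir k)| * H) + α * H) / β < -G.xi (z θ) (G.F.dir j) :=
        by
          have := (le_max_right ((c * (|Cj| * α + |G.sc j (G.F.dir k)| * H) + β * H) / α + 1)
            ((c * (|Ci| * β + |G.sc i (G.F.dir k)| * H) + α * H) / β + 1)).trans (le_max_right H _)
          linarith
      rw [div_lt_iff₀ hβ] at h1
      rw [he] at hk
      by_contra hle'
      push Not at hle'
      have a1 : β * G.xi (z θ) (G.e i) ≤ β * |Ci| :=
        mul_le_mul_of_nonneg_left (hle'.trans (le_abs_self Ci)) hβ.le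
      have a2 := mul_le_mul_of_nonneg_right (neg_abs_le (G.sc i (G.F.dir k))) hH.le
      have a3 : c * (-(|Ci| * β + |G.sc i (G.F.dir k)| * H)) ≤ c * G.xi (z θ) (G.F.dir k) :=
        mul_le_mul_of_nonneg_left (by linarith) hc.le
      linarith
    have h1 := hzlev θ hθI i (hylev i hpi)
    have h2 := (G.le_Fmap H (j := k) hb h0 (t := lvl i R) (h1.trans (le_max_left _ _)))
    rw [hzk] at h2
    have h3 := hsi.1
    rw [G.Fmap_congr H rfl (G.prv_mod k),
      show lvl (i + 1) = lvl k by rw [← hmod (i + 1), G.prv_mod k, hmod]] at h3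
    linarith
  · -- the forward band
    have hD : D < G.xi (z θ) (G.F.dir i) := hbig.resolve_right (by linarith)
    have hb : G.Band H j (z θ) := ⟨hzP, by rw [← abs_neg, he, abs_of_pos hH]⟩
    have hnj : G.n j (G.F.dir k) = α := by simp only [n, α]; rw [← cross_comm]
    have hej : G.xi (z θ) (G.F.dir j) = -H := by linarith
    have h0 : 0 ≤ G.n j (z θ) := by
      refine hside_j _ hb ?_
      have hdec := G.xi_decomp (z θ) j (G.F.dir k)
      rw [hnj, hej] at hdec
      have h1 : (c * (|Cj| * α + |G.sc j (G.F.dir k)| * H) + β * H) / α < G.xi (z θ) (G.F.dir i) :=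
        by
          have := (le_max_left ((c * (|Cj| * α + |G.sc j (G.F.dir k)| * H) + β * H) / α + 1)
            ((c * (|Ci| * β + |G.sc i (G.F.dir k)| * H) + α * H) / β + 1)).trans (le_max_right H _)
          linarith
      rw [div_lt_iff₀ hα] at h1
      rw [hej] at hk
      by_contra hle'
      push Not at hle'
      have a1 : α * G.xi (z θ) (G.e j) ≤ α * |Cj| :=
        mul_le_mul_of_nonneg_left (hle'.trans (le_abs_self Cj)) hα.le
      have a2 := mul_le_mul_of_nonneg_right (neg_abs_le (G.sc j (G.F.dir k))) hH.le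
      have a3 : c * G.xi (z θ) (G.F.dir k) ≤ c * (|Cj| * α + |G.sc j (G.F.dir k)| * H) :=
        mul_le_mul_of_nonneg_left (by linarith) hc.le
      linarith
    have h1 := hzlev θ hθI j (hylev j hsj.1)
    have h2 := (G.le_Fmap H (j := k) hb h0 (t := lvl j R) (h1.trans (le_max_left _ _)))
    rw [hzk] at h2
    linarith [hsj.2]

end Frame

end Vale.Agent.P072
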