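import Vale.Agent.P072.Frame

/-! Properness: bounded log-gradients and bounded levels give compact subsets of the class. -/

noncomputable section

namespace Vale.Agent.P072

open Finset Filter

namespace Frame

variable {d : ℕ} (G : Frame d)

lemma exists_norm_le : ∃ κ > 0, ∀ w : ℝ × ℝ, κ * ‖w‖ ≤ ∑ i, |G.L w i| := by
  obtain ⟨K, hK, hKL⟩ := (LinearMap.injective_iff_antilipschitz G.L).1 G.inj
  have hK' : (0 : ℝ) < K := hK
  refine ⟨(K : ℝ)⁻¹, inv_pos.2 hK', fun w => ?_⟩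
  have h := hKL.le_mul_dist w 0
  simp only [map_zero, dist_zero_right] at h
  have h2 : ‖G.L w‖ ≤ ∑ i, |G.L w i| := by
    refine (pi_norm_le_iff_of_nonneg (Finset.sum_nonneg fun i _ => abs_nonneg _)).2 fun i => ?_
    exact Finset.single_le_sum (f := fun i => |G.L w i|) (fun i _ => abs_nonneg _) (mem_univ i)
  rw [← div_eq_inv_mul, div_le_iff₀' hK']
  exact h.trans (mul_le_mul_of_nonneg_left h2 hK'.le)

lemma term_lower {c x K : ℝ} (hc : 0 < c) (hx : 0 < x) (hK : 0 ≤ K) :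
    K * |x - c| - K * Real.exp K * c ≤ (x - c) * (Real.log x - Real.log c) := by
  have hsame : 0 ≤ (x - c) * (Real.log x - Real.log c) := by
    rcases le_total c x with h | h
    · exact mul_nonneg (sub_nonneg.2 h) (sub_nonneg.2 (Real.log_le_log hc h))
    · exact mul_nonneg_of_nonpos_of_nonpos (sub_nonpos.2 h) (sub_nonpos.2 (Real.log_le_log hx h))
  have he : 1 ≤ Real.exp K := Real.one_le_exp hK
  by_cases h : K ≤ |Real.log x - Real.log c|
  · have h0 : 0 ≤ K * Real.exp K * c := by positivity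
    have h1 : K * |x - c| ≤ |(x - c) * (Real.log x - Real.log c)| := by
      rw [abs_mul, mul_comm K]; exact mul_le_mul_of_nonneg_left h (abs_nonneg _)
    rw [abs_of_nonneg hsame] at h1
    linarith
  · push Not at h
    have hlt : x ≤ c * Real.exp K := by
      rw [← Real.log_le_log_iff hx (by positivity), Real.log_mul hc.ne' (Real.exp_pos _).ne',
        Real.log_exp]
      linarith [(abs_lt.1 h).2]
    have habs : |x - c| ≤ Real.exp K * c := abs_le.2 ⟨by nlinarith, by nlinarith⟩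
    nlinarith [mul_le_mul_of_nonneg_left habs hK]

lemma mem_small {c x B : ℝ} (hc : 0 < c) (hx : 0 < x)
    (h : (x - c) * (Real.log x - Real.log c) ≤ B) :
    min (c / 2) (c * Real.exp (-(2 * B / c))) ≤ x := by
  by_contra hlt
  push Not at hlt
  obtain ⟨h1, h2⟩ := lt_min_iff.1 hlt
  have h3 : Real.log x - Real.log c < -(2 * B / c) := by
    have := Real.log_lt_log hx h2
    rw [Real.log_mul hc.ne' (Real.exp_pos _).ne', Real.log_exp] at this
    linarith
  have h4 : Real.log x - Real.log c < 0 := sub_neg.2 (Real.log_lt_log hx (by linarith))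
  have h5 : c / 2 * (2 * B / c) = B := by field_simp
  nlinarith

/-- Compact boxes inside the class. -/
lemma isCompact_box (ρ : ℝ) {η : Fin d → ℝ} (hη : ∀ i, 0 < η i) :
    IsCompact {w ∈ G.P | ‖w‖ ≤ ρ ∧ ∀ i, η i ≤ G.x w i} := by
  have e : {w ∈ G.P | ‖w‖ ≤ ρ ∧ ∀ i, η i ≤ G.x w i} =
      Metric.closedBall 0 ρ ∩ {w | ∀ i, η i ≤ G.x w i} := by
    ext w
    simp only [Set.mem_setOf_eq, Set.mem_inter_iff, mem_closedBall_zero_iff]
    exact ⟨fun h => h.2, fun h => ⟨fun i => (hη i).trans_le (h.2 i), h⟩⟩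
  rw [e]
  refine (isCompact_closedBall _ _).inter_right ?_
  simp only [Set.setOf_forall]
  exact isClosed_iInter fun i => isClosed_le continuous_const (continuous_pi_iff.1 G.continuous_x i)

lemma bounded_xi (C : ℝ) :
    ∃ Q ⊆ G.P, IsCompact Q ∧ ∀ w ∈ G.P,
      |G.xi w (1, 0)| ≤ C → |G.xi w (0, 1)| ≤ C → w ∈ Q := by
  obtain ⟨κ, hκ, hn⟩ := G.exists_norm_le
  set A := |C| + |C| + |G.xi 0 (1, 0)| + |G.xi 0 (0, 1)|
  have hA : 0 ≤ A := by positivity
  set K := (A + 1) / κ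
  have hK : 0 ≤ K := by positivity
  set B := ∑ i, K * Real.exp K * G.c i
  have hB : 0 ≤ B := Finset.sum_nonneg fun i _ =>
    mul_nonneg (mul_nonneg hK (Real.exp_pos _).le) (G.cpos i).le
  set η : Fin d → ℝ := fun i => min (G.c i / 2) (G.c i * Real.exp (-(2 * (A * B) / G.c i)))
  refine ⟨_, fun w hw => hw.1, G.isCompact_box B (η := η) fun i =>
    lt_min (half_pos (G.cpos i)) (mul_pos (G.cpos i) (Real.exp_pos _)), fun w hw h1 h2 => ?_⟩
  set T := ∑ i, (G.x w i - G.c i) * (Real.log (G.x w i) - Real.log (G.c i))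
  have hT : T = G.xi w w - G.xi 0 w := by
    simp only [T, xi, pair, x_zero, ← Finset.sum_sub_distrib, ← mul_sub]
    refine Finset.sum_congr rfl fun i _ => ?_
    simp [x]
  have hw' : w = w.1 • ((1, 0) : ℝ × ℝ) + w.2 • ((0, 1) : ℝ × ℝ) := by ext <;> simp
  have hTb : T ≤ A * ‖w‖ := by
    have hx : ∀ z, G.xi z w = w.1 * G.xi z (1, 0) + w.2 * G.xi z (0, 1) := fun z => by
      conv_lhs => rw [hw', xi_add, xi_smul, xi_smul]
    rw [hT, hx, hx]
    have n1 : |w.1| ≤ ‖w‖ := norm_fst_le w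
    have n2 : |w.2| ≤ ‖w‖ := norm_snd_le w
    have key : ∀ a b D : ℝ, |a| ≤ ‖w‖ → |b| ≤ D → a * b ≤ ‖w‖ * D := fun a b D ha hb =>
      (le_abs_self _).trans ((abs_mul a b).le.trans
        (mul_le_mul ha hb (abs_nonneg _) (norm_nonneg _)))
    have k1 := key w.1 (G.xi w (1, 0) - G.xi 0 (1, 0)) (|C| + |G.xi 0 (1, 0)|) n1
      ((abs_sub _ _).trans (add_le_add (h1.trans (le_abs_self C)) le_rfl))
    have k2 := key w.2 (G.xi w (0, 1) - G.xi 0 (0, 1)) (|C| + |G.xi 0 (0, 1)|) n2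
      ((abs_sub _ _).trans (add_le_add (h2.trans (le_abs_self C)) le_rfl))
    calc _ = w.1 * (G.xi w (1, 0) - G.xi 0 (1, 0)) + w.2 * (G.xi w (0, 1) - G.xi 0 (0, 1)) := by ring
      _ ≤ _ := add_le_add k1 k2
      _ = A * ‖w‖ := by simp only [A]; ring
  have hTl : K * (κ * ‖w‖) - B ≤ T := by
    refine le_trans ?_ (Finset.sum_le_sum fun i _ => term_lower (G.cpos i) (hw i) hK)
    rw [Finset.sum_sub_distrib, ← Finset.mul_sum]
    refine sub_le_sub_right (mul_le_mul_of_nonneg_left ((hn w).trans_eq ?_) hK) _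
    simp [x]
  have hnorm : ‖w‖ ≤ B := by
    have : K * κ = A + 1 := by simp only [K]; field_simp
    nlinarith
  refine ⟨hw, hnorm, fun i => mem_small (G.cpos i) (hw i) ?_⟩
  calc (G.x w i - G.c i) * (Real.log (G.x w i) - Real.log (G.c i)) ≤ T := by
        refine Finset.single_le_sum (f := fun i => (G.x w i - G.c i) *
          (Real.log (G.x w i) - Real.log (G.c i))) (fun j _ => ?_) (mem_univ i)
        rcases le_total (G.c j) (G.x w j) with h | h
        · exact mul_nonneg (sub_nonneg.2 h) (sub_nonneg.2 (Real.log_le_log (G.cpos j) h))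
        · exact mul_nonneg_of_nonpos_of_nonpos (sub_nonpos.2 h)
            (sub_nonpos.2 (Real.log_le_log (hw j) h))
    _ ≤ A * ‖w‖ := hTb
    _ ≤ A * B := mul_le_mul_of_nonneg_left hnorm hA

/-- Bounded pairings in any adapted basis are bounded pairings. -/
lemma bounded_xi_pair {p q : ℝ × ℝ} (hpq : cross p q ≠ 0) (C : ℝ) :
    ∃ Q ⊆ G.P, IsCompact Q ∧ ∀ w ∈ G.P, |G.xi w p| ≤ C → |G.xi w q| ≤ C → w ∈ Q := by
  set M := fun v : ℝ × ℝ => (|cross v q| + |cross p v|) / |cross p q| * |C|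
  obtain ⟨Q, hQP, hQ, hmem⟩ := G.bounded_xi (M (1, 0) + M (0, 1))
  have hM : ∀ v, 0 ≤ M v := fun v => by positivity
  refine ⟨Q, hQP, hQ, fun w hw hp hq => ?_⟩
  have key : ∀ v, |G.xi w v| ≤ M v := by
    intro v
    have e := congrArg (G.xi w) (cross_decomp p q v)
    rw [xi_smul, xi_add, xi_smul, xi_smul] at e
    simp only [M]
    rw [div_mul_eq_mul_div, le_div_iff₀ (abs_pos.2 hpq), mul_comm, ← abs_mul, e]
    refine (abs_add_le _ _).trans ?_
    rw [abs_mul, abs_mul, add_mul]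
    exact add_le_add (mul_le_mul_of_nonneg_left (hp.trans (le_abs_self _)) (abs_nonneg _))
      (mul_le_mul_of_nonneg_left (hq.trans (le_abs_self _)) (abs_nonneg _))
  exact hmem w hw ((key _).trans (le_add_of_nonneg_right (hM _)))
    ((key _).trans (le_add_of_nonneg_left (hM _)))

lemma n0 (w : ℝ × ℝ) : G.n 0 w = -w.2 := by simp [n, G.dir0, cross]

lemma dir_one_snd_pos : 0 < (G.F.dir 1).2 := by
  have := G.F.cross_succ 0
  simpa [G.dir0, cross] using this

lemma le_bound_of_tau {k : ℕ} {w : ℝ × ℝ} (hw : w ∈ G.P) {C : ℝ}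
    (h : G.tau k (G.n k w) ≤ C) : G.n k w ≤ G.lev k C := G.le_lev_of_tau_le hw h

lemma lev_lt_top {k : ℕ} (hk : G.Bdd k) (C : ℝ) : G.lev k C < G.top k := by
  obtain ⟨w, hw, h⟩ := G.lev_valid k C
  rw [← h]
  exact G.lt_top' hk hw

lemma n_mod (k : ℕ) : G.n (k % G.F.N) = G.n k := by
  funext w; simp only [n, G.F.dir_mod]

lemma tau_mod (k : ℕ) : G.tau (k % G.F.N) = G.tau k := by
  funext b; unfold tau Bdd top; rw [G.n_mod k]

lemma sublevel_subset (C : ℝ) :
    ∃ Q ⊆ G.P, IsCompact Q ∧ ∀ w ∈ G.P,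
      (∀ k < G.F.N, G.tau k (G.n k w) ≤ C) → w ∈ Q := by
  classical
  -- bounds on the two coordinates
  set M := G.F.M
  have hcoord : ∀ i, ∃ η, 0 < η ∧ ∀ w ∈ G.P,
      (∀ k < G.F.N, G.tau k (G.n k w) ≤ C) → η ≤ G.x w i := by
    intro i
    rcases G.coord i with h | ⟨k, r, hr, h⟩
    · exact ⟨G.c i, G.cpos i, fun w _ _ => by simp [x, h w]⟩
    · have hx : ∀ w, G.x w i = G.c i - r * G.n k w := fun w => by simp [x, n, h w]
      have hb : G.Bdd k := ⟨G.c i / r, by
        rintro _ ⟨w, hw, rfl⟩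
        rw [le_div_iff₀ hr]
        nlinarith [hw i, hx w]⟩
      have htop : G.top k ≤ G.c i / r := by
        refine csSup_le ⟨_, 0, G.zero_mem, rfl⟩ ?_
        rintro _ ⟨w, hw, rfl⟩
        rw [le_div_iff₀ hr]
        nlinarith [hw i, hx w]
      rw [le_div_iff₀ hr] at htop
      refine ⟨G.c i - r * G.lev k C, by nlinarith [G.lev_lt_top hb C], fun w hw hall => ?_⟩
      rw [hx]
      have h1 := hall (k % G.F.N) (Nat.mod_lt _ G.F.N_pos)
      rw [tau_mod, n_mod] at h1
      nlinarith [G.le_bound_of_tau hw h1]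
  choose η hη hηb using hcoord
  set u := G.F.dir 1
  set A := max (G.lev 0 C) (G.lev M C)
  set B := (max (G.lev 1 C) (G.lev (1 + M) C) + |u.1| * A) / u.2
  refine ⟨_, fun w hw => hw.1, G.isCompact_box (max A B) hη, fun w hw hall => ?_⟩
  have hu : 0 < u.2 := G.dir_one_snd_pos
  have hM := G.F.three_le
  have hN : G.F.N = 2 * M := rfl
  have b0 := G.le_bound_of_tau hw (hall 0 G.F.N_pos)
  have b0' := G.le_bound_of_tau hw (hall M (by omega))
  have b1 := G.le_bound_of_tau hw (hall 1 (by omega))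
  have b1' := G.le_bound_of_tau hw (hall (1 + M) (by omega))
  have hneg : ∀ k, G.n (k + M) w = -G.n k w := fun k => by
    simp only [n, M, G.F.antipode, cross_neg_left]
  have hnM : G.n M w = w.2 := by
    have := hneg 0; rw [zero_add, G.n0] at this; linarith
  rw [G.n0] at b0
  rw [hnM] at b0'
  have h2 : |w.2| ≤ A :=
    abs_le.2 ⟨by linarith [le_max_left (G.lev 0 C) (G.lev M C)],
      b0'.trans (le_max_right _ _)⟩
  have hn1 : |G.n 1 w| ≤ max (G.lev 1 C) (G.lev (1 + M) C) := by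
    refine abs_le.2 ⟨?_, b1.trans (le_max_left _ _)⟩
    rw [hneg 1] at b1'
    linarith [le_max_right (G.lev 1 C) (G.lev (1 + M) C)]
  have h1 : |w.1| ≤ B := by
    have e : G.n 1 w = u.2 * w.1 - u.1 * w.2 := by simp [n, cross, u]
    simp only [B]
    rw [le_div_iff₀ hu]
    calc |w.1| * u.2 = |G.n 1 w + u.1 * w.2| := by
          rw [e, sub_add_cancel, abs_mul, abs_of_pos hu]; ring
      _ ≤ |G.n 1 w| + |u.1| * |w.2| := (abs_add_le _ _).trans (by rw [abs_mul])
      _ ≤ _ := add_le_add hn1 (mul_le_mul_of_nonneg_left h2 (abs_nonneg _))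
  refine ⟨hw, ?_, fun i => hηb i w hw hall⟩
  rw [Prod.norm_def]
  exact max_le (h1.trans (le_max_right _ _)) (h2.trans (le_max_left _ _))

end Frame

end Vale.Agent.P072
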